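import Mathlib

/-!
# P151: Bernoulli bond percolation, definitions

A configuration is the set `ω` of open edges; `setBernoulli G.edgeSet p` (Mathlib) is the law of the
random subset of the edge set of `G` that contains each edge independently with probability `p`.
-/

namespace Vale.Agent.N151.D

open MeasureTheory ProbabilityTheory

variable {V : Type}

/-- The open cluster of `x`: the vertices joined to `x` by a path of open edges. -/
def cluster (ω : Set (Sym2 V)) (x : V) : Set V :=
  {y | (SimpleGraph.fromEdgeSet ω).Reachable x y}

/-- The number of infinite open clusters. -/
noncomputable def numInf (ω : Set (Sym2 V)) : ℕ∞ :=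
  {C : Set V | ∃ x, C = cluster ω x ∧ C.Infinite}.encard

/-- `θ_x(p)`: the probability that the open cluster of `x` is infinite. -/
noncomputable def theta (G : SimpleGraph V) (x : V) (p : unitInterval) : ℝ :=
  (setBernoulli G.edgeSet p).real {ω | (cluster ω x).Infinite}

/-- `p_c(G)`: the infimum of the `p ∈ [0, 1]` at which an infinite open cluster exists with
positive probability. -/
noncomputable def pc (G : SimpleGraph V) : unitInterval :=
  sInf {p | 0 < setBernoulli G.edgeSet p {ω | ∃ x, (cluster ω x).Infinite}}

end Vale.Agent.N151.D
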