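import Vale.Agent.N151.Schon
import Vale.Agent.N151.Defs
import Vale.Agent.P151.FULL.Final

/-!
# P151: continuity of the percolation probability and the three phases
-/

namespace Vale.Agent.N151

open MeasureTheory ProbabilityTheory unitInterval SimpleGraph Vale.Agent.P151 Filter Topology
open scoped ENNReal

variable {V : Type} [Countable V] {G : SimpleGraph V} [G.LocallyFinite]

omit [Countable V] [G.LocallyFinite] in
theorem law (p : I) {S : Set (Set (Sym2 V))} (hS : MeasurableSet S) :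
    unif (Sym2 V) (op G p ⁻¹' S) = setBernoulli G.edgeSet p S := by
  rw [← H648.map_openAt, Measure.map_apply (H648.measurable_openAt _ _) hS]
  rfl

omit [Countable V] [G.LocallyFinite] in
theorem ae_law (p : I) {P : Set (Sym2 V) → Prop} (hP : MeasurableSet {ω | P ω}) :
    (∀ᵐ ω ∂(setBernoulli G.edgeSet p), P ω) ↔ ∀ᵐ U ∂(unif (Sym2 V)), P (op G p U) := by
  rw [← H648.map_openAt, ae_map_iff (H648.measurable_openAt _ _).aemeasurable hP]
  rfl

theorem meas_has : MeasurableSet (hasInfiniteCluster V) := by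
  have : hasInfiniteCluster V = ⋃ x, {ω | (cluster ω x).Infinite} := by
    ext ω
    simp [hasInfiniteCluster]
  rw [this]
  exact MeasurableSet.iUnion fun x => P151W95.meas_inf x

omit [Countable V] in
theorem infCl_nonempty {ω : Set (Sym2 V)} :
    1 ≤ (infCl ω).encard ↔ ∃ x, (cluster ω x).Infinite := by
  rw [Set.one_le_encard_iff_nonempty]
  exact ⟨fun ⟨_, x, h, hx⟩ => ⟨x, h ▸ hx⟩, fun ⟨x, hx⟩ => ⟨_, x, rfl, hx⟩⟩

theorem meas_eq [Nonempty V] (k : ℕ∞) :
    MeasurableSet {ω : Set (Sym2 V) | (infCl ω).encard = k} := by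
  induction k using ENat.recTopCoe with
  | top =>
    simp only [ENat.eq_top_iff_forall_ge, Set.ofPred_forall]
    exact MeasurableSet.iInter meas_le
  | coe k =>
    have : {ω : Set (Sym2 V) | (infCl ω).encard = k} =
        {ω | (k : ℕ∞) ≤ (infCl ω).encard} \ {ω | ((k + 1 : ℕ) : ℕ∞) ≤ (infCl ω).encard} := by
      ext ω
      simp only [Set.mem_ofPred_eq, Set.mem_sdiff, not_le, Nat.cast_add, Nat.cast_one]
      rw [ENat.lt_add_one_iff (ENat.natCast_ne_top k), le_antisymm_iff, and_comm]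
    rw [this]
    exact (meas_le k).diff (meas_le (k + 1))

/-- Above `p_c` there is almost surely an infinite cluster. -/
theorem perc_above [Infinite V] (hG : G.Connected) {q : I} (hq : pc G < q) :
    unif (Sym2 V) {U | ∀ w, (cluster (op G q U) w).Finite} = 0 := by
  classical
  obtain ⟨o⟩ := hG.nonempty
  have h := (ae_law q meas_has).1 (H648.ae_perc hG o (H648.theta_pos hG o hq))
  refine measure_mono_null ?_ (ae_iff.1 h)
  rintro U hU ⟨w, hw⟩
  exact hw (hU w)

omit [G.LocallyFinite] in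
theorem theta_eq (x : V) (p : I) :
    H648.theta G x p = (unif (Sym2 V)).real {U | (cluster (op G p U) x).Infinite} := by
  rw [measureReal_def]
  exact congrArg ENNReal.toReal (law p (P151W95.meas_inf x)).symm

theorem exists_theta_gt [Infinite V] (hG : G.Connected) (hqt : IsQuasiTransitive G) (x : V)
    {p : I} (hp : pc G < p) {a : ℝ} (ha : a < H648.theta G x p) :
    ∃ q : I, q < p ∧ a < H648.theta G x q := by
  classical
  have hpc0 := pc_nonneg G
  obtain ⟨p0, hp0, hp0p⟩ : ∃ p0 : I, pc G < p0 ∧ p0 < p := by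
    refine ⟨⟨(pc G + p) / 2, by linarith [p.2.1], by linarith [p.2.2]⟩, ?_, ?_⟩
    · show pc G < (pc G + p) / 2
      linarith
    · rw [← Subtype.coe_lt_coe]
      show (pc G + p) / 2 < (p : ℝ)
      linarith
  obtain ⟨q, hqmono, hq, hqlim⟩ := exists_seq_strictMono_tendsto' hp0p
  have hsub : {U | (cluster (op G p U) x).Infinite} ≤ᵐ[unif (Sym2 V)]
      ⋃ n, {U | (cluster (op G (q n) U) x).Infinite} := by
    filter_upwards [stab hG hqt hp0p.le (perc_above hG hp0)] with U h1 hx
    obtain ⟨z, h3, hz⟩ := h1 x hx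
    obtain ⟨n, hn⟩ := H648.exists_level (G := G) hqmono.monotone hqlim h3
    refine Set.mem_iUnion.2 ⟨n, ?_⟩
    exact (hz.mono (cl_mono (op_mono (hq n).1.le U) z)).mono fun y hy => cl_trans hn hy
  have hmono : Monotone fun n => {U : Sym2 V → I | (cluster (op G (q n) U) x).Infinite} :=
    fun m n hmn U hU => Set.Infinite.mono (cl_mono (op_mono (hqmono.monotone hmn) U) x) hU
  have h5 := measure_mono_ae hsub
  rw [hmono.measure_iUnion] at h5
  by_contra hcon
  push Not at hcon
  have ha0 : 0 ≤ a := (H648.theta_nonneg x (q 0)).trans (hcon (q 0) (hq 0).2)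
  have h6 : unif (Sym2 V) {U | (cluster (op G p U) x).Infinite} ≤ ENNReal.ofReal a := by
    refine h5.trans (iSup_le fun n => ?_)
    have h7 := hcon (q n) (hq n).2
    rw [theta_eq] at h7
    rw [← ofReal_measureReal (measure_ne_top _ _)]
    exact ENNReal.ofReal_le_ofReal h7
  have h7 : H648.theta G x p ≤ a := by
    rw [theta_eq, measureReal_def]
    exact ENNReal.toReal_le_of_le_ofReal ha0 h6
  linarith

omit [Countable V] in
theorem null_le [Infinite V] (hG : G.Connected) (hqt : IsQuasiTransitive G) (h1 : pc G < 1)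
    {p : I} (hp : (p : ℝ) ≤ pc G) : setBernoulli G.edgeSet p (hasInfiniteCluster V) = 0 :=
  (H648.low hG (FULL.no_perc_of_seam FULL.seam hG hqt h1) p hp).1

theorem continuous_theta [Infinite V] (hG : G.Connected) (hqt : IsQuasiTransitive G)
    (h1 : pc G < 1) (x : V) : Continuous (H648.theta G x) := by
  classical
  rw [continuous_iff_continuousAt]
  intro p
  rcases le_or_gt (p : ℝ) (pc G) with h | h
  · exact H648.continuousAt_of_zero hG x p (H648.theta_eq_zero_of_null x (null_le hG hqt h1 h))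
  · rw [ContinuousAt, tendsto_order]
    constructor
    · intro a ha
      obtain ⟨q, hqp, hq⟩ := exists_theta_gt hG hqt x h ha
      filter_upwards [lt_mem_nhds hqp] with r hr
      exact hq.trans_le (H648.theta_mono hG x hr.le)
    · intro a ha
      have := H648.theta_usc hG x p (show 0 < a - H648.theta G x p by linarith)
      filter_upwards [this] with r hr
      linarith

theorem theta_lt [Infinite V] (hG : G.Connected) (x : V) {p r : I} (hpr : p < r)
    (hr : pc G < r) : H648.theta G x p < H648.theta G x r := by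
  classical
  have hpos := H648.theta_pos hG x hr
  set B : Set (Sym2 V → I) :=
    {U | (cluster (op G r U) x).Infinite ∧ (cluster (op G p U) x).Finite} with hB
  have hBm : MeasurableSet B :=
    measurableSet_setOfPred.2 ((meas_infinite (meas_op r) x).and (meas_finite (meas_op p) x))
  set F := (edges_finite (G := G) (Set.finite_singleton x)).toFinset with hF
  have hFm : ∀ e, e ∈ F ↔ e ∈ G.edgeSet ∧ e ∈ touch {x} := fun e => Set.Finite.mem_toFinset _
  have hB0 : unif (Sym2 V) B ≠ 0 := by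
    intro h0
    have h1 := null_setT F p measurableSet_Ico (vol_Ico hpr) hBm h0 fun U hU h => by
      have e1 : op G r (setT F p U) = op G r U := by
        ext e
        by_cases he : e ∈ F
        · exact and_congr_right fun _ => iff_of_true (by rw [setT_mem he]; exact hpr) (hU e he).2
        · exact op_congr (setT_not he)
      have e2 : op G p (setT F p U) = op G p U := by
        ext e
        by_cases he : e ∈ F
        · exact and_congr_right fun _ =>
            iff_of_false (by rw [setT_mem he]; exact lt_irrefl p) (not_lt.2 (hU e he).1)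
        · exact op_congr (setT_not he)
      simpa only [hB, Set.mem_ofPred_eq, e1, e2] using h
    have h2 : unif (Sym2 V) {U | (cluster (op G r U) x).Infinite} = 0 := by
      refine measure_mono_null (fun U hU => ?_) h1
      refine ⟨Set.Infinite.mono (cl_mono (fun e he => ?_) x) hU, ?_⟩
      · by_cases h : e ∈ F
        · exact ⟨he.1, by rw [setT_mem h]; exact hpr⟩
        · exact (op_congr (setT_not h)).2 he
      · refine (Set.finite_singleton x).subset (cl_closed rfl ?_)
        rintro a rfl b hab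
        have h3 := hab.2
        rw [setT_mem ((hFm _).2 ⟨hab.1, mk_touch (C := {a}) rfl b⟩)] at h3
        exact absurd h3 (lt_irrefl p)
    rw [theta_eq, measureReal_def, h2, ENNReal.toReal_zero] at hpos
    exact lt_irrefl _ hpos
  have h4 : {U | (cluster (op G r U) x).Infinite} =
      {U | (cluster (op G p U) x).Infinite} ∪ B := by
    ext U
    constructor
    · intro hU
      by_cases h : (cluster (op G p U) x).Finite
      · exact Or.inr ⟨hU, h⟩
      · exact Or.inl h
    · rintro (h | h)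
      · exact Set.Infinite.mono (cl_mono (op_mono hpr.le U) x) h
      · exact h.1
  have hd : Disjoint {U | (cluster (op G p U) x).Infinite} B :=
    Set.disjoint_left.2 fun U h h' => h h'.2
  rw [theta_eq, theta_eq, h4, measureReal_union hd hBm]
  have h5 : 0 < (unif (Sym2 V)).real B := ENNReal.toReal_pos hB0 (measure_ne_top _ _)
  linarith

omit [G.LocallyFinite] in
theorem theta_one [Infinite V] (hG : G.Connected) (x : V) : H648.theta G x 1 = 1 := by
  rw [theta_eq, measureReal_def]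
  have h : unif (Sym2 V) {U | (cluster (op G 1 U) x).Infinite} = 1 := by
    rw [← prob_compl_eq_zero_iff (measurableSet_setOfPred.2 (meas_infinite (meas_op 1) x))]
    filter_upwards [ae_lt_one (V := V)] with U hU
    exact Set.infinite_univ.mono fun y _ => cl_one hG hU x y
  rw [h, ENNReal.toReal_one]

/-- Monotonicity of uniqueness. -/
theorem one_mono (hG : G.Connected) (hqt : IsQuasiTransitive G) {q p : I} (hqp : q ≤ p)
    (h : ∀ᵐ U ∂(unif (Sym2 V)), (infCl (op G q U)).encard = 1) :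
    ∀ᵐ U ∂(unif (Sym2 V)), (infCl (op G p U)).encard = 1 := by
  have hperc : unif (Sym2 V) {U | ∀ w, (cluster (op G q U) w).Finite} = 0 := by
    refine measure_mono_null ?_ (ae_iff.1 h)
    intro U hU hU'
    obtain ⟨w, hw⟩ := infCl_nonempty.1 (Eq.ge hU')
    exact hw (hU w)
  filter_upwards [h, stab hG hqt hqp hperc] with U h1 h2
  obtain ⟨w, hw⟩ := infCl_nonempty.1 h1.ge
  refine le_antisymm (Set.encard_le_one_iff.2 ?_)
    (infCl_nonempty.2 ⟨w, hw.mono (cl_mono (op_mono hqp U) w)⟩)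
  rintro _ _ ⟨x, rfl, hx⟩ ⟨y, rfl, hy⟩
  obtain ⟨a, ha, ha'⟩ := h2 x hx
  obtain ⟨b, hb, hb'⟩ := h2 y hy
  have h3 := Set.encard_le_one_iff.1 h1.le _ _ ⟨a, rfl, ha'⟩ ⟨b, rfl, hb'⟩
  have h4 : b ∈ cluster (op G p U) a := cl_mono (op_mono hqp U) a (h3 ▸ cl_self _ b)
  rw [← cl_eq ha, ← cl_eq hb, cl_eq h4]

theorem phases [Infinite V] (hG : G.Connected) (hqt : IsQuasiTransitive G) (h1 : pc G < 1) :
    ∃ pu : ℝ, pc G ≤ pu ∧ pu ≤ 1 ∧ ∀ p : I,
      ((p : ℝ) ≤ pc G → ∀ᵐ ω ∂(setBernoulli G.edgeSet p), (infCl ω).encard = 0) ∧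
      (pc G < p → (p : ℝ) < pu → ∀ᵐ ω ∂(setBernoulli G.edgeSet p), (infCl ω).encard = ⊤) ∧
      (pu < p → ∀ᵐ ω ∂(setBernoulli G.edgeSet p), (infCl ω).encard = 1) ∧
      ((p : ℝ) = pu → pc G < pu →
        (∀ᵐ ω ∂(setBernoulli G.edgeSet p), (infCl ω).encard = 1) ∨
        (∀ᵐ ω ∂(setBernoulli G.edgeSet p), (infCl ω).encard = ⊤)) := by
  set S : Set ℝ := {t | ∃ p : I, (p : ℝ) = t ∧
    ∀ᵐ U ∂(unif (Sym2 V)), (infCl (op G p U)).encard = 1} with hS
  have hone : (1 : ℝ) ∈ S := by
    obtain ⟨o⟩ := hG.nonempty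
    refine ⟨1, rfl, ?_⟩
    filter_upwards [ae_lt_one (V := V)] with U hU
    refine le_antisymm (Set.encard_le_one_iff.2 ?_)
      (infCl_nonempty.2 ⟨o, Set.infinite_univ.mono fun y _ => cl_one hG hU o y⟩)
    rintro _ _ ⟨x, rfl, -⟩ ⟨y, rfl, -⟩
    exact (cl_eq (cl_one hG hU x y)).symm
  have hzero : ∀ p : I, (p : ℝ) ≤ pc G →
      ∀ᵐ ω ∂(setBernoulli G.edgeSet p), (infCl ω).encard = 0 := by
    intro p hp
    filter_upwards [measure_eq_zero_iff_ae_notMem.1 (null_le hG hqt h1 hp)] with ω hω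
    exact Order.lt_one_iff.1 (not_le.1 fun h => hω (infCl_nonempty.1 h))
  have hlow : ∀ t ∈ S, pc G ≤ t := by
    rintro _ ⟨p, rfl, hp⟩
    by_contra h
    have h2 := (ae_law p (meas_eq 0)).1 (hzero p (not_le.1 h).le)
    obtain ⟨U, h3, h4⟩ := (hp.and h2).exists
    rw [h3] at h4
    exact one_ne_zero h4
  have hbdd : BddBelow S := ⟨_, hlow⟩
  have hnz : ∀ p : I, pc G < p → ¬ ∀ᵐ U ∂(unif (Sym2 V)), (infCl (op G p U)).encard = 0 := by
    intro p hp h
    obtain ⟨U, h3, h4⟩ := (h.and (measure_eq_zero_iff_ae_notMem.1 (perc_above hG hp))).exists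
    obtain ⟨w, hw⟩ := not_forall.1 h4
    have h5 := infCl_nonempty.2 ⟨w, hw⟩
    rw [h3] at h5
    exact absurd h5 (by simp)
  refine ⟨sInf S, le_csInf ⟨1, hone⟩ hlow, csInf_le hbdd hone, fun p => ⟨hzero p, ?_, ?_, ?_⟩⟩
  · intro hp hpu
    rw [ae_law p (meas_eq ⊤)]
    rcases trichotomy hG hqt p with h | h | h
    · exact absurd h (hnz p hp)
    · exact absurd (csInf_le hbdd ⟨p, rfl, h⟩) (not_le.2 hpu)
    · exact h
  · intro hpu
    obtain ⟨_, ⟨q, rfl, hq⟩, hqp⟩ := exists_lt_of_csInf_lt ⟨1, hone⟩ hpu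
    rw [ae_law p (meas_eq 1)]
    exact one_mono hG hqt hqp.le hq
  · intro hp hlt
    rw [ae_law p (meas_eq 1), ae_law p (meas_eq ⊤)]
    exact (trichotomy hG hqt p).resolve_left (hnz p (hp ▸ hlt))

omit [Countable V] in
theorem coe_pc [Infinite V] (hG : G.Connected) : (D.pc G : ℝ) = pc G := by
  classical
  exact P151W95.coe_sInf (S := {p | 0 < setBernoulli G.edgeSet p (hasInfiniteCluster V)})
    (H648.perc_one hG)

omit [Countable V] in
theorem main [Infinite V] (hG : G.Connected) (hqt : IsQuasiTransitive G) (h1 : D.pc G < 1) :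
    (setBernoulli G.edgeSet (D.pc G) {ω | ∃ x, (D.cluster ω x).Infinite} = 0 ∧
      ∀ x, D.theta G x (D.pc G) = 0) ∧
    ((∀ x : V, MeasurableSet {ω | (D.cluster ω x).Infinite}) ∧
      ∀ k, MeasurableSet {ω : Set (Sym2 V) | D.numInf ω = k}) ∧
    (∀ x, Continuous (D.theta G x) ∧ StrictMonoOn (D.theta G x) (Set.Ici (D.pc G)) ∧
      D.theta G x 1 = 1) ∧
    (∃ pu : I, D.pc G ≤ pu ∧ ∀ p : I,
      (p ≤ D.pc G → ∀ᵐ ω ∂(setBernoulli G.edgeSet p), D.numInf ω = 0) ∧
      (D.pc G < p → p < pu → ∀ᵐ ω ∂(setBernoulli G.edgeSet p), D.numInf ω = ⊤) ∧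
      (pu < p → ∀ᵐ ω ∂(setBernoulli G.edgeSet p), D.numInf ω = 1)) ∧
    ∀ q p : I, D.pc G < q → q ≤ p →
      ∀ᵐ U ∂(Measure.infinitePi fun _ : Sym2 V => (volume : Measure I)),
        ∀ x, (D.cluster {e | e ∈ G.edgeSet ∧ U e < p} x).Infinite →
          ∃ z ∈ D.cluster {e | e ∈ G.edgeSet ∧ U e < p} x,
            (D.cluster {e | e ∈ G.edgeSet ∧ U e < q} z).Infinite := by
  classical
  have : Countable V := countable_V hG
  have hc := coe_pc hG
  have h1' : pc G < 1 := by
    rw [← hc]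
    exact h1
  have h0 := null_le hG hqt h1' (p := D.pc G) hc.le
  refine ⟨⟨h0, fun x => H648.theta_eq_zero_of_null x h0⟩,
    ⟨fun x => P151W95.meas_inf x, fun k => meas_eq k⟩,
    fun x => ⟨continuous_theta hG hqt h1' x, fun p hp r _ hpr => theta_lt hG x hpr ?_,
      theta_one hG x⟩, ?_, fun q p hq hqp => ?_⟩
  · rw [← hc]
    exact lt_of_le_of_lt (show D.pc G ≤ p from hp) hpr
  · obtain ⟨pu, h2, h3, h4⟩ := phases hG hqt h1'
    rw [← hc] at h2 h4
    exact ⟨⟨pu, (D.pc G).2.1.trans h2, h3⟩, h2, fun p =>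
      ⟨(h4 p).1, (h4 p).2.1, (h4 p).2.2.1⟩⟩
  · exact stab hG hqt hqp (perc_above hG (by rw [← hc]; exact hq))

theorem main_lattice (d : ℕ) (hd : 2 ≤ d) (G : SimpleGraph (Fin d → ℤ))
    (hadj : ∀ x y, G.Adj x y ↔ ∑ i, |x i - y i| = 1) :
    D.pc G < 1 ∧ setBernoulli G.edgeSet (D.pc G) {ω | ∃ x, (D.cluster ω x).Infinite} = 0 ∧
      ∀ x, D.theta G x (D.pc G) = 0 ∧ Continuous (D.theta G x) := by
  obtain rfl : G = H648.lattice d := by
    ext x y
    exact hadj x y
  have hinf := H648.lattice_infinite (d := d) hd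
  have hlt : pc (H648.lattice d) < 1 := by
    obtain ⟨m, rfl⟩ : ∃ m, d = m + 2 := ⟨d - 2, by omega⟩
    exact (ZdT.no_perc (H648.lattice (m + 2)) fun _ _ => Iff.rfl).1
  have h1 : D.pc (H648.lattice d) < 1 := by
    rw [← coe_pc H648.lattice_connected] at hlt
    exact hlt
  have h := main H648.lattice_connected H648.lattice_transitive h1
  exact ⟨h1, h.1.1, fun x => ⟨h.1.2 x, (h.2.2.1 x).1⟩⟩

end Vale.Agent.N151
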