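import Mathlib

/-!
# P151: independent uniform labels, dependence on coordinates, finite modifications
-/

namespace Vale.Agent.N151

open MeasureTheory ProbabilityTheory unitInterval
open scoped ENNReal symmDiff

variable {ι : Type}

/-- Independent uniform labels. -/
noncomputable def unif (ι : Type) : Measure (ι → I) :=
  Measure.infinitePi (fun _ => (volume : Measure I))

noncomputable instance : IsProbabilityMeasure (unif ι) := by
  unfold unif; infer_instance

/-- The event `A` depends only on the coordinates in `S`. -/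
def Dep (S : Set ι) (A : Set (ι → I)) : Prop :=
  ∀ U U' : ι → I, (∀ i ∈ S, U i = U' i) → U ∈ A → U' ∈ A

theorem Dep.mono {S T : Set ι} {A : Set (ι → I)} (h : Dep S A) (hST : S ⊆ T) : Dep T A :=
  fun U U' hU => h U U' fun i hi => hU i (hST hi)

theorem Dep.compl {S : Set ι} {A : Set (ι → I)} (h : Dep S A) : Dep S Aᶜ :=
  fun U U' hU hA hA' => hA (h U' U (fun i hi => (hU i hi).symm) hA')

theorem meas_dep {S : Set ι} {A : Set (ι → I)} (hA : MeasurableSet A) (dA : Dep S A) :
    MeasurableSet[⨆ i ∈ S, MeasurableSpace.comap (fun U : ι → I => U i) inferInstance] A := by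
  classical
  let r : (ι → I) → ι → I := fun U i => if i ∈ S then U i else 0
  have hr : A = r ⁻¹' A := by
    ext U
    exact ⟨dA U (r U) fun i hi => by simp [r, hi], dA (r U) U fun i hi => by simp [r, hi]⟩
  have hm : @Measurable _ _ (⨆ i ∈ S, MeasurableSpace.comap (fun U : ι → I => U i) inferInstance)
      MeasurableSpace.pi r := by
    refine @measurable_pi_lambda _ _ _ (_) _ r fun i => ?_
    by_cases hi : i ∈ S
    · simp only [r, hi, if_true]
      exact Measurable.of_comap_le (le_iSup₂ (f := fun i (_ : i ∈ S) =>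
        MeasurableSpace.comap (fun U : ι → I => U i) inferInstance) i hi)
    · simp only [r, hi, if_false]
      exact @measurable_const _ _ _ (_) _
  rw [hr]
  exact hm hA

theorem indep_dep {S : Set ι} {A B : Set (ι → I)} (hA : MeasurableSet A) (hB : MeasurableSet B)
    (dA : Dep S A) (dB : Dep Sᶜ B) : unif ι (A ∩ B) = unif ι A * unif ι B := by
  have h1 : iIndepFun (fun i (U : ι → I) => U i) (unif ι) :=
    iIndepFun_infinitePi (X := fun _ t => t) fun _ => measurable_id
  rw [iIndepFun_iff_iIndep] at h1
  have h2 := indep_iSup_of_disjoint (fun i => (measurable_pi_apply i).comap_le) h1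
    (S := S) (T := Sᶜ) disjoint_compl_right
  exact (Indep_iff _ _ _).1 h2 A B (meas_dep hA dA) (meas_dep hB dB)

theorem unif_pi (F : Finset ι) {J : Set I} (hJ : MeasurableSet J) :
    unif ι {U | ∀ e ∈ F, U e ∈ J} = volume J ^ F.card := by
  have h := Measure.infinitePi_pi (μ := fun _ : ι => (volume : Measure I)) (s := F)
    (t := fun _ => J) fun _ _ => hJ
  rw [Finset.prod_const] at h
  exact h

theorem meas_pi (F : Finset ι) {J : Set I} (hJ : MeasurableSet J) :
    MeasurableSet {U : ι → I | ∀ e ∈ F, U e ∈ J} :=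
  MeasurableSet.pi (s := (F : Set ι)) (t := fun _ => J) F.countable_toSet fun _ _ => hJ

open Classical in
/-- Set the labels in `F` to the value `c`. -/
noncomputable def setT (F : Finset ι) (c : I) (U : ι → I) : ι → I :=
  fun e => if e ∈ F then c else U e

theorem setT_mem {F : Finset ι} {c : I} {U : ι → I} {e : ι} (h : e ∈ F) : setT F c U e = c := by
  simp [setT, h]

theorem setT_not {F : Finset ι} {c : I} {U : ι → I} {e : ι} (h : e ∉ F) : setT F c U e = U e := by
  simp [setT, h]

theorem meas_setT (F : Finset ι) (c : I) : Measurable (setT F c) := by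
  refine measurable_pi_lambda _ fun e => ?_
  by_cases h : e ∈ F
  · simp only [setT_mem h]
    exact measurable_const
  · simp only [setT_not h]
    exact measurable_pi_apply e

theorem unif_setT (F : Finset ι) (c : I) {J : Set I} (hJ : MeasurableSet J) {B : Set (ι → I)}
    (hB : MeasurableSet B) :
    unif ι ({U | ∀ e ∈ F, U e ∈ J} ∩ setT F c ⁻¹' B) =
      volume J ^ F.card * unif ι (setT F c ⁻¹' B) := by
  rw [indep_dep (S := (F : Set ι)) (meas_pi F hJ) (meas_setT F c hB), unif_pi F hJ]
  · intro U U' h hU e he
    rw [← h e he]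
    exact hU e he
  · intro U U' h hU
    have : setT F c U' = setT F c U := by
      funext e
      by_cases he : e ∈ F
      · rw [setT_mem he, setT_mem he]
      · rw [setT_not he, setT_not he, h e he]
    show setT F c U' ∈ B
    rw [this]
    exact hU

/-- Finite modifications of null events are null. -/
theorem null_setT (F : Finset ι) (c : I) {J : Set I} (hJ : MeasurableSet J) (hJ0 : volume J ≠ 0)
    {B : Set (ι → I)} (hB : MeasurableSet B) (h0 : unif ι B = 0)
    (h : ∀ U, (∀ e ∈ F, U e ∈ J) → setT F c U ∈ B → U ∈ B) : unif ι (setT F c ⁻¹' B) = 0 := by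
  have h1 := unif_setT F c hJ hB
  rw [measure_mono_null (fun U hU => h U hU.1 hU.2) h0] at h1
  exact (mul_eq_zero.1 h1.symm).resolve_left (pow_ne_zero _ hJ0)

theorem le_of_values {Ω β : Type} [MeasurableSpace Ω] (μ : Measure Ω) [Countable β]
    (H : β → Set Ω) (hm : ∀ b, MeasurableSet (H b))
    (hd : Pairwise (Function.onFun Disjoint H)) {A : Set Ω} (hA : A ⊆ ⋃ b, H b) (c : ℝ≥0∞)
    (h : ∀ b, μ (A ∩ H b) ≤ c * μ (H b)) : μ A ≤ c * μ (⋃ b, H b) := by
  rw [measure_iUnion hd hm, ← ENNReal.tsum_mul_left]
  refine le_trans (measure_mono ?_) ((measure_iUnion_le fun b => A ∩ H b).trans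
    (ENNReal.tsum_le_tsum h))
  rw [← Set.inter_iUnion]
  exact Set.subset_inter le_rfl hA

theorem unif_comp {f : ι → ι} (hf : Function.Injective f) {A : Set (ι → I)}
    (hA : MeasurableSet A) : unif ι ((fun U i => U (f i)) ⁻¹' A) = unif ι A := by
  have h := Measure.map_infinitePi_infinitePi_of_inj
    (P := fun _ : ι => (volume : Measure I)) hf
  have hm : Measurable (fun (U : ι → I) i => U (f i)) :=
    measurable_pi_lambda _ fun i => measurable_pi_apply _
  rw [← Measure.map_apply hm hA]
  exact congrArg (fun ν : Measure (ι → I) => ν A) h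

/-- The zero-one law for events invariant under maps that move finite sets off themselves. -/
theorem zero_one {A : Set (ι → I)} (hA : MeasurableSet A)
    (h : ∀ F : Finset ι, ∃ f : ι → ι, Function.Injective f ∧
      (fun U i => U (f i)) ⁻¹' A = A ∧ ∀ e ∈ F, f e ∉ F) :
    unif ι A = 0 ∨ unif ι A = 1 := by
  classical
  have hd : (unif ι).MeasureDense (measurableCylinders fun _ : ι => I) :=
    Measure.MeasureDense.of_generateFrom_isSetAlgebra_finite _ isSetAlgebra_measurableCylinders
      generateFrom_measurableCylinders.symm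
  set a := (unif ι).real A with ha
  have key : ∀ ε : ℝ, 0 < ε → a ≤ a * a + 5 * ε := by
    intro ε hε
    obtain ⟨t, ht, hte⟩ := hd.approx A hA (measure_ne_top _ _) ε hε
    obtain ⟨F, T, hT, rfl⟩ := (mem_measurableCylinders t).1 ht
    obtain ⟨f, hf, hinv, hF⟩ := h F
    have htm : MeasurableSet (cylinder (α := fun _ : ι => I) F T) :=
      MeasurableSet.of_mem_measurableCylinders ht
    set t := cylinder (α := fun _ : ι => I) F T with htdef
    have hm : Measurable (fun (U : ι → I) i => U (f i)) :=
      measurable_pi_lambda _ fun i => measurable_pi_apply _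
    set t' := (fun (U : ι → I) i => U (f i)) ⁻¹' t with ht'def
    have dt : Dep (F : Set ι) t := by
      intro U U' hU hUt
      rw [htdef, mem_cylinder] at hUt ⊢
      have : F.restrict U' = F.restrict U := by
        funext i
        exact (hU i i.2).symm
      rwa [this]
    have dt' : Dep (F : Set ι)ᶜ t' := fun U U' hU hUt =>
      dt _ _ (fun i hi => hU (f i) (hF i hi)) hUt
    have e1 : (unif ι).real (t ∩ t') = (unif ι).real t * (unif ι).real t := by
      rw [measureReal_def, indep_dep htm (hm htm) dt dt', unif_comp hf htm,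
        ENNReal.toReal_mul]
      rfl
    have e2 : (unif ι).real (A ∆ t) < ε :=
      ENNReal.toReal_lt_of_lt_ofReal hte
    have e3 : (unif ι).real (A ∆ t') < ε := by
      have : A ∆ t' = (fun (U : ι → I) i => U (f i)) ⁻¹' (A ∆ t) := by
        rw [Set.preimage_symmDiff, hinv]
      rw [this, measureReal_def, unif_comp hf (hA.symmDiff htm)]
      exact e2
    have e4 : a ≤ (unif ι).real (t ∩ t') + (unif ι).real (A ∆ t) + (unif ι).real (A ∆ t') := by
      refine le_trans (measureReal_mono (s₂ := (t ∩ t' ∪ A ∆ t) ∪ A ∆ t') ?_)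
        ((measureReal_union_le _ _).trans (add_le_add_left (measureReal_union_le _ _) _))
      intro U hU
      by_cases h1 : U ∈ t
      · by_cases h2 : U ∈ t'
        · exact Or.inl (Or.inl ⟨h1, h2⟩)
        · exact Or.inr (Or.inl ⟨hU, h2⟩)
      · exact Or.inl (Or.inr (Or.inl ⟨hU, h1⟩))
    have e5 : (unif ι).real t ≤ a + (unif ι).real (A ∆ t) := by
      refine le_trans (measureReal_mono (s₂ := A ∪ A ∆ t) ?_) (measureReal_union_le _ _)
      intro U hU
      by_cases h1 : U ∈ A
      · exact Or.inl h1
      · exact Or.inr (Or.inr ⟨hU, h1⟩)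
    have b0 : 0 ≤ (unif ι).real t := measureReal_nonneg
    have b1 : (unif ι).real t ≤ 1 := measureReal_le_one
    have a0 : 0 ≤ a := measureReal_nonneg
    have a1 : a ≤ 1 := measureReal_le_one
    have c1 : (unif ι).real t * (unif ι).real t ≤ (unif ι).real t * (a + ε) :=
      mul_le_mul_of_nonneg_left (by linarith) b0
    have c2 : (unif ι).real t * a ≤ (a + ε) * a := mul_le_mul_of_nonneg_right (by linarith) a0
    have c3 : (unif ι).real t * ε ≤ 1 * ε := mul_le_mul_of_nonneg_right b1 hε.le
    have c4 : ε * a ≤ ε * 1 := mul_le_mul_of_nonneg_left a1 hε.le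
    nlinarith only [e1, e2, e3, e4, c1, c2, c3, c4, hε]
  have h0 : a ≤ a * a := le_of_forall_pos_le_add fun ε hε => by
    have := key (ε / 5) (by linarith)
    linarith
  have h1 : a ≤ 1 := measureReal_le_one
  have h2 : 0 ≤ a := measureReal_nonneg
  rcases h2.eq_or_lt with h3 | h3
  · exact Or.inl ((measureReal_eq_zero_iff (measure_ne_top _ _)).1 h3.symm)
  · have h4 : a = 1 := le_antisymm h1 (by nlinarith)
    right
    rw [← ofReal_measureReal (μ := unif ι) (s := A) (measure_ne_top _ _), ← ha, h4]
    simp

end Vale.Agent.N151
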