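import Mathlib
import Vale.Agent.N151.Tools
import Vale.Agent.P151.Defs
import Vale.Agent.P151W95.Kit

/-!
# P151: clusters, balls, measurability, automorphisms
-/

namespace Vale.Agent.N151

open MeasureTheory ProbabilityTheory unitInterval SimpleGraph Vale.Agent.P151

variable {V : Type}

theorem cl_self (ω : Set (Sym2 V)) (x : V) : x ∈ cluster ω x := Reachable.refl x

theorem cl_step {ω : Set (Sym2 V)} {x a b : V} (ha : a ∈ cluster ω x) (h : s(a, b) ∈ ω) :
    b ∈ cluster ω x := by
  by_cases hab : a = b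
  · exact hab ▸ ha
  · exact Reachable.trans ha (Adj.reachable ((fromEdgeSet_adj _).2 ⟨h, hab⟩))

theorem cl_closed {ω : Set (Sym2 V)} {x : V} {D : Set V} (hx : x ∈ D)
    (h : ∀ a ∈ D, ∀ b, s(a, b) ∈ ω → b ∈ D) : cluster ω x ⊆ D := by
  intro y hy
  have hy' : (fromEdgeSet ω).Reachable x y := hy
  rw [reachable_iff_reflTransGen] at hy'
  clear hy
  induction hy' with
  | refl => exact hx
  | tail _ hbc ih => exact h _ ih _ ((fromEdgeSet_adj _).1 hbc).1

theorem cl_mono {ω ω' : Set (Sym2 V)} (h : ω ⊆ ω') (x : V) : cluster ω x ⊆ cluster ω' x :=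
  cl_closed (cl_self _ _) fun _ ha _ hb => cl_step ha (h hb)

theorem cl_symm {ω : Set (Sym2 V)} {x y : V} (h : y ∈ cluster ω x) : x ∈ cluster ω y :=
  Reachable.symm h

theorem cl_trans {ω : Set (Sym2 V)} {x y z : V} (h : y ∈ cluster ω x) (h' : z ∈ cluster ω y) :
    z ∈ cluster ω x := Reachable.trans h h'

theorem cl_eq {ω : Set (Sym2 V)} {x y : V} (h : y ∈ cluster ω x) : cluster ω y = cluster ω x :=
  Set.Subset.antisymm (fun _ hz => cl_trans h hz) fun _ hz => cl_trans (cl_symm h) hz

/-- The pairs with an end in `C`. -/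
def touch (C : Set V) : Set (Sym2 V) := {e | ∃ v ∈ C, v ∈ e}

theorem mk_touch {C : Set V} {a : V} (ha : a ∈ C) (b : V) : s(a, b) ∈ touch C :=
  ⟨a, ha, Sym2.mem_mk_left a b⟩

theorem touch_mono {C D : Set V} (h : C ⊆ D) : touch C ⊆ touch D :=
  fun _ ⟨v, hv, he⟩ => ⟨v, h hv, he⟩

theorem cl_congr {ω ω' : Set (Sym2 V)} {x : V}
    (h : ∀ e ∈ touch (cluster ω x), e ∈ ω ↔ e ∈ ω') : cluster ω' x = cluster ω x := by
  refine Set.Subset.antisymm
    (cl_closed (cl_self _ _) fun a ha b hb => cl_step ha ((h _ (mk_touch ha b)).2 hb)) ?_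
  have : cluster ω x ⊆ cluster ω x ∩ cluster ω' x :=
    cl_closed ⟨cl_self _ _, cl_self _ _⟩ fun a ha b hb =>
      ⟨cl_step ha.1 hb, cl_step ha.2 ((h _ (mk_touch ha.1 b)).1 hb)⟩
  exact fun y hy => (this hy).2

/-- The open edges at level `p`. -/
def op (G : SimpleGraph V) (p : I) (U : Sym2 V → I) : Set (Sym2 V) :=
  {e | e ∈ G.edgeSet ∧ U e < p}

variable {G : SimpleGraph V}

theorem op_mono {p q : I} (h : p ≤ q) (U : Sym2 V → I) : op G p U ⊆ op G q U :=
  fun _ he => ⟨he.1, he.2.trans_le h⟩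

theorem op_adj {p : I} {U : Sym2 V → I} {a b : V} (h : s(a, b) ∈ op G p U) : G.Adj a b := h.1

theorem op_congr {p : I} {U U' : Sym2 V → I} {e : Sym2 V} (h : U e = U' e) :
    e ∈ op G p U ↔ e ∈ op G p U' := by
  simp only [op, Set.mem_ofPred_eq, h]

theorem meas_op_mem (p : I) (e : Sym2 V) : Measurable fun U => e ∈ op G p U :=
  measurable_const.and (measurableSet_setOfPred.1 (measurable_pi_apply e measurableSet_Iio))

theorem meas_op_inter (p : I) (T : Set (Sym2 V)) : Measurable fun U => op G p U ∩ T :=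
  measurable_set_iff.2 fun e => (meas_op_mem p e).and measurable_const

theorem meas_op (p : I) : Measurable (op G p) := measurable_set_iff.2 fun e => meas_op_mem p e

theorem meas_cl [Countable V] {f : (Sym2 V → I) → Set (Sym2 V)} (hf : Measurable f) (x y : V) :
    Measurable fun U => y ∈ cluster (f U) x :=
  measurableSet_setOfPred.1 (hf (P151W95.meas_reach x y))

theorem meas_infinite [Countable V] {f : (Sym2 V → I) → Set (Sym2 V)} (hf : Measurable f)
    (x : V) : Measurable fun U => (cluster (f U) x).Infinite :=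
  measurableSet_setOfPred.1 (hf (P151W95.meas_inf x))

theorem meas_finite [Countable V] {f : (Sym2 V → I) → Set (Sym2 V)} (hf : Measurable f)
    (x : V) : Measurable fun U => (cluster (f U) x).Finite := by
  have := (meas_infinite hf x).not
  simpa only [Set.not_infinite] using this

theorem meas_cl_eq [Countable V] {f : (Sym2 V → I) → Set (Sym2 V)} (hf : Measurable f) (x : V)
    (C : Set V) : MeasurableSet {U | cluster (f U) x = C} := by
  simp only [Set.ext_iff]
  exact measurableSet_setOfPred.2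
    (Measurable.forall fun y => (meas_cl hf x y).iff measurable_const)

/-- The ball of radius `n`. -/
def ball (G : SimpleGraph V) (x : V) (n : ℕ) : Set V := {y | G.dist x y ≤ n}

theorem ball_self (x : V) (n : ℕ) : x ∈ ball G x n := by simp [ball]

theorem ball_mono (x : V) {m n : ℕ} (h : m ≤ n) : ball G x m ⊆ ball G x n :=
  fun _ hy => le_trans hy h

theorem dist_adj (hG : G.Connected) (x : V) {a b : V} (h : G.Adj a b) :
    G.dist x b ≤ G.dist x a + 1 := by
  have h1 := hG.dist_triangle (u := x) (v := a) (w := b)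
  rwa [dist_eq_one_iff_adj.2 h] at h1

theorem exists_pred (hG : G.Connected) {x y : V} {n : ℕ} (h : G.dist x y = n + 1) :
    ∃ z, G.dist x z = n ∧ G.Adj z y := by
  obtain ⟨w, hw⟩ := hG.exists_walk_length_eq_dist y x
  rw [dist_comm, h] at hw
  cases w with
  | nil => simp at hw
  | @cons _ z _ hadj q =>
    refine ⟨z, ?_, hadj.symm⟩
    have h1 : G.dist x z ≤ n := by
      have := dist_le q.reverse
      simp only [Walk.length_cons] at hw
      rw [Walk.length_reverse] at this
      omega
    have h2 := dist_adj hG x hadj.symm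
    omega

/-- The closed neighbourhood. -/
def nb (G : SimpleGraph V) (C : Set V) : Set V := {w | w ∈ C ∨ ∃ a ∈ C, G.Adj a w}

theorem nb_finite [G.LocallyFinite] {C : Set V} (hC : C.Finite) : (nb G C).Finite := by
  refine (hC.union (hC.biUnion fun a _ => (G.neighborSet a).toFinite)).subset ?_
  rintro w (h | ⟨a, ha, h⟩)
  · exact Or.inl h
  · exact Or.inr (Set.mem_biUnion ha h)

theorem nb_mono {C D : Set V} (h : C ⊆ D) : nb G C ⊆ nb G D := by
  rintro w (hw | ⟨a, ha, hw⟩)
  · exact Or.inl (h hw)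
  · exact Or.inr ⟨a, h ha, hw⟩

theorem ball_finite [G.LocallyFinite] (hG : G.Connected) (x : V) (n : ℕ) :
    (ball G x n).Finite := by
  induction n with
  | zero =>
    refine (Set.finite_singleton x).subset fun y hy => ?_
    exact (hG.dist_eq_zero_iff.1 (Nat.le_zero.1 hy)).symm
  | succ n ih =>
    refine (nb_finite (G := G) ih).subset fun y hy => ?_
    rcases Nat.lt_or_ge (G.dist x y) (n + 1) with h | h
    · exact Or.inl (Nat.lt_succ_iff.1 h)
    · obtain ⟨z, hz, hzy⟩ := exists_pred hG (le_antisymm hy h)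
      exact Or.inr ⟨z, hz.le, hzy⟩

theorem countable_V [G.LocallyFinite] (hG : G.Connected) : Countable V := by
  obtain ⟨o⟩ := hG.nonempty
  have h : (Set.univ : Set V) = ⋃ n, ball G o n := by
    ext x
    simp only [Set.mem_univ, Set.mem_iUnion, true_iff]
    exact ⟨G.dist o x, le_refl (G.dist o x)⟩
  exact Set.countable_univ_iff.1
    (h ▸ Set.countable_iUnion fun n => (ball_finite hG o n).countable)

theorem sub_ball (x : V) {C : Set V} (hC : C.Finite) : ∃ n, C ⊆ ball G x n := by
  obtain ⟨n, hn⟩ := (hC.image (G.dist x)).bddAbove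
  exact ⟨n, fun y hy => hn (Set.mem_image_of_mem _ hy)⟩

/-- The edges of `G` with an end in a finite set form a finite set. -/
theorem edges_finite [G.LocallyFinite] {C : Set V} (hC : C.Finite) :
    (G.edgeSet ∩ touch C).Finite := by
  refine ((hC.prod (nb_finite (G := G) hC)).image fun q => s(q.1, q.2)).subset ?_
  rintro e ⟨he, v, hv, hve⟩
  obtain ⟨w, rfl⟩ := Sym2.mem_iff_exists.1 hve
  exact ⟨(v, w), ⟨hv, Or.inr ⟨v, hv, he⟩⟩, rfl⟩

/-- The edges of `G` with both ends in `C`. -/
def inside (G : SimpleGraph V) (C : Set V) : Set (Sym2 V) := {e | e ∈ G.edgeSet ∧ ∀ v ∈ e, v ∈ C}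

theorem inside_finite [G.LocallyFinite] {C : Set V} (hC : C.Finite) : (inside G C).Finite := by
  refine (edges_finite (G := G) hC).subset fun e he => ⟨he.1, ?_⟩
  induction e using Sym2.ind with
  | _ a b => exact mk_touch (he.2 a (Sym2.mem_mk_left a b)) b

theorem ball_sub_cl (hG : G.Connected) {ω : Set (Sym2 V)} {y : V} {R : ℕ}
    (h : inside G (ball G y R) ⊆ ω) : ball G y R ⊆ cluster ω y := by
  have key : ∀ n, n ≤ R → ∀ v, G.dist y v = n → v ∈ cluster ω y := by
    intro n
    induction n with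
    | zero =>
      intro _ v hv
      exact (hG.dist_eq_zero_iff.1 hv) ▸ cl_self ω y
    | succ n ih =>
      intro hn v hv
      obtain ⟨z, hz, hzv⟩ := exists_pred hG hv
      refine cl_step (ih (by omega) z hz) (h ⟨hzv, fun w hw => ?_⟩)
      rcases Sym2.mem_iff.1 hw with rfl | rfl
      · exact hz.le.trans (by omega)
      · exact hv.le.trans hn
  exact fun v hv => key _ hv v rfl

/-- An infinite cluster that meets a finite set `C` leaves it for the last time. -/
theorem last_exit [G.LocallyFinite] {ω : Set (Sym2 V)} (hω : ω ⊆ G.edgeSet) {C : Set V}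
    (hC : C.Finite) {w : V} (hw : w ∈ C) (hinf : (cluster ω w).Infinite) :
    ∃ v ∈ nb G C, (cluster (ω ∩ (touch C)ᶜ) v).Infinite := by
  by_contra hcon
  push Not at hcon
  refine hinf (((nb_finite (G := G) hC).biUnion hcon).subset (cl_closed ?_ ?_))
  · exact Set.mem_biUnion (Or.inl hw) (cl_self _ _)
  · intro a ha b hab
    obtain ⟨v, hv, hav⟩ := Set.mem_iUnion₂.1 ha
    by_cases ht : s(a, b) ∈ touch C
    · obtain ⟨c, hc, hce⟩ := ht
      refine Set.mem_biUnion (x := b) ?_ (cl_self _ _)
      rcases Sym2.mem_iff.1 hce with rfl | rfl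
      · exact Or.inr ⟨c, hc, hω hab⟩
      · exact Or.inl hc
    · exact Set.mem_biUnion hv (cl_step hav ⟨hab, ht⟩)

/-! ### Automorphisms -/

theorem dist_iso (hG : G.Connected) (φ : G ≃g G) (x y : V) : G.dist (φ x) (φ y) = G.dist x y := by
  have key : ∀ (φ : G ≃g G) (x y : V), G.dist (φ x) (φ y) ≤ G.dist x y := by
    intro φ x y
    obtain ⟨w, hw⟩ := hG.exists_walk_length_eq_dist x y
    have := dist_le (w.map φ.toHom)
    rwa [Walk.length_map, hw] at this
  refine le_antisymm (key φ x y) ?_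
  have := key φ.symm (φ x) (φ y)
  rwa [RelIso.symm_apply_apply, RelIso.symm_apply_apply] at this

/-- The action of an automorphism on the labels. -/
def act (φ : G ≃g G) (U : Sym2 V → I) : Sym2 V → I := fun e => U (Sym2.map φ e)

theorem unif_act (φ : G ≃g G) {A : Set (Sym2 V → I)} (hA : MeasurableSet A) :
    unif (Sym2 V) (act φ ⁻¹' A) = unif (Sym2 V) A :=
  unif_comp (Sym2.map.injective φ.injective) hA

theorem op_act (φ : G ≃g G) (p : I) (U : Sym2 V → I) (a b : V) :
    s(a, b) ∈ op G p (act φ U) ↔ s(φ a, φ b) ∈ op G p U := by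
  simp only [op, act, Set.mem_ofPred_eq, Sym2.map_mk, mem_edgeSet, φ.map_rel_iff]

theorem cl_act (φ : G ≃g G) (p : I) (U : Sym2 V → I) (x y : V) :
    y ∈ cluster (op G p (act φ U)) x ↔ φ y ∈ cluster (op G p U) (φ x) := by
  let ψ : fromEdgeSet (op G p (act φ U)) ≃g fromEdgeSet (op G p U) :=
    ⟨φ.toEquiv, fun {a b} => by
      rw [fromEdgeSet_adj, fromEdgeSet_adj, op_act]
      exact and_congr Iff.rfl φ.injective.ne_iff⟩
  exact (Iso.reachable_iff (φ := ψ)).symm

theorem inf_act (φ : G ≃g G) (p : I) (U : Sym2 V → I) (x : V) :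
    (cluster (op G p (act φ U)) x).Infinite ↔ (cluster (op G p U) (φ x)).Infinite := by
  have : cluster (op G p (act φ U)) x = φ ⁻¹' cluster (op G p U) (φ x) :=
    Set.ext fun y => cl_act φ p U x y
  rw [this]
  exact ⟨fun h hf => h (hf.preimage φ.injective.injOn),
    fun h => h.preimage (by rw [φ.surjective.range_eq]; exact Set.subset_univ _)⟩

end Vale.Agent.N151
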