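import Vale.Agent.N151.Final

/-!
# P151: the phase diagram (withdrawn hand-in, kept for the record; not a hand-in)
-/

namespace Vale.Agent.N151.Old

open MeasureTheory ProbabilityTheory Vale.Agent.N151.D

/-- Bond percolation on an infinite, connected, locally finite, quasi-transitive graph `G` with
`p_c(G) < 1`.
1. At `p = p_c` there is almost surely no infinite open cluster, and `θ_x(p_c) = 0` for all `x`.
   (The events are measurable.)
2. Every `θ_x` is continuous on `[0, 1]`, strictly increasing on `[p_c, 1]`, and `θ_x(1) = 1`.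
3. For some `p_u ≥ p_c`, the number of infinite clusters is almost surely `0` for `p ≤ p_c`,
   infinite for `p_c < p < p_u`, and `1` for `p > p_u`.
4. With independent uniform labels on the edges, for `p_c < q ≤ p` almost surely every infinite
   cluster of level `p` contains an infinite cluster of level `q`.
5. On `ℤ^d`, `d ≥ 2`: `p_c < 1`, no infinite cluster at `p_c`, and `θ_x` is continuous. -/
theorem phaseDiagram :
    (∀ (V : Type) [Infinite V] (G : SimpleGraph V) [G.LocallyFinite], G.Connected →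
      (∃ S : Finset V, ∀ x : V, ∃ y ∈ S, ∃ φ : G ≃g G, φ y = x) → pc G < 1 →
      (setBernoulli G.edgeSet (pc G) {ω | ∃ x, (cluster ω x).Infinite} = 0 ∧
        ∀ x, theta G x (pc G) = 0) ∧
      ((∀ x : V, MeasurableSet {ω | (cluster ω x).Infinite}) ∧
        ∀ k, MeasurableSet {ω : Set (Sym2 V) | numInf ω = k}) ∧
      (∀ x, Continuous (theta G x) ∧ StrictMonoOn (theta G x) (Set.Ici (pc G)) ∧
        theta G x 1 = 1) ∧
      (∃ pu : unitInterval, pc G ≤ pu ∧ ∀ p : unitInterval,
        (p ≤ pc G → ∀ᵐ ω ∂(setBernoulli G.edgeSet p), numInf ω = 0) ∧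
        (pc G < p → p < pu → ∀ᵐ ω ∂(setBernoulli G.edgeSet p), numInf ω = ⊤) ∧
        (pu < p → ∀ᵐ ω ∂(setBernoulli G.edgeSet p), numInf ω = 1)) ∧
      ∀ q p : unitInterval, pc G < q → q ≤ p →
        ∀ᵐ U ∂(Measure.infinitePi fun _ : Sym2 V => (volume : Measure unitInterval)),
          ∀ x, (cluster {e | e ∈ G.edgeSet ∧ U e < p} x).Infinite →
            ∃ z ∈ cluster {e | e ∈ G.edgeSet ∧ U e < p} x,
              (cluster {e | e ∈ G.edgeSet ∧ U e < q} z).Infinite) ∧
    ∀ (d : ℕ), 2 ≤ d → ∀ G : SimpleGraph (Fin d → ℤ),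
      (∀ x y, G.Adj x y ↔ ∑ i, |x i - y i| = 1) →
      pc G < 1 ∧ setBernoulli G.edgeSet (pc G) {ω | ∃ x, (cluster ω x).Infinite} = 0 ∧
        ∀ x, theta G x (pc G) = 0 ∧ Continuous (theta G x) :=
  ⟨fun _ _ _ _ hG hqt h1 => Vale.Agent.N151.main hG hqt h1, Vale.Agent.N151.main_lattice⟩

end Vale.Agent.N151.Old
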