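import Mathlib
import Vale.Agent.N151.Graph

/-!
# P151: infinite clusters contain large balls and come close to the infinite clusters of a lower
level
-/

namespace Vale.Agent.N151

open MeasureTheory ProbabilityTheory unitInterval SimpleGraph Vale.Agent.P151 Filter Topology
open scoped ENNReal

variable {V : Type} [Countable V] {G : SimpleGraph V} [G.LocallyFinite]

/-- The ball of radius `R` around `y` meets an infinite cluster. -/
def Seed (G : SimpleGraph V) (p : I) (y : V) (R : ℕ) : Set (Sym2 V → I) :=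
  {U | ∃ w, w ∈ ball G y R ∧ (cluster (op G p U) w).Infinite}

omit [G.LocallyFinite] in
theorem meas_Seed (p : I) (y : V) (R : ℕ) : MeasurableSet (Seed G p y R) :=
  measurableSet_setOfPred.2
    (Measurable.exists fun w => measurable_const.and (meas_infinite (meas_op p) w))

omit [G.LocallyFinite] in
theorem seed_unif (hG : G.Connected) (hqt : IsQuasiTransitive G) {p : I}
    (hperc : unif (Sym2 V) {U | ∀ w, (cluster (op G p U) w).Finite} = 0) {ε : ℝ≥0∞}
    (hε : 0 < ε) : ∃ R, ∀ y, unif (Sym2 V) (Seed G p y R)ᶜ ≤ ε := by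
  obtain ⟨S, hS⟩ := hqt
  have h1 : ∀ y, ∀ᶠ R in atTop, unif (Sym2 V) (Seed G p y R)ᶜ ≤ ε := by
    intro y
    have hanti : Antitone fun R => (Seed G p y R)ᶜ := by
      intro a b hab
      refine Set.compl_subset_compl.2 ?_
      rintro U ⟨w, hw, h⟩
      exact ⟨w, ball_mono y hab hw, h⟩
    have h2 := tendsto_measure_iInter_atTop (μ := unif (Sym2 V))
      (fun R => (meas_Seed (G := G) p y R).compl.nullMeasurableSet) hanti
      ⟨0, measure_ne_top _ _⟩
    have h3 : unif (Sym2 V) (⋂ R, (Seed G p y R)ᶜ) = 0 := by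
      refine measure_mono_null ?_ hperc
      intro U hU w
      by_contra hw
      exact Set.mem_iInter.1 hU (G.dist y w) ⟨w, le_refl (G.dist y w), hw⟩
    rw [h3] at h2
    exact (h2.eventually (gt_mem_nhds hε)).mono fun R h => h.le
  obtain ⟨R, hR⟩ := ((eventually_all_finset S).2 fun y _ => h1 y).exists
  refine ⟨R, fun x => ?_⟩
  obtain ⟨y, hy, φ, rfl⟩ := hS x
  refine le_trans (measure_mono ?_) ((unif_act φ (meas_Seed p y R).compl).le.trans (hR y hy))
  rintro U hU ⟨w, hw, h⟩
  exact hU ⟨φ w, (dist_iso hG φ y w).le.trans hw, (inf_act φ p U w).1 h⟩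

/-- All the edges in the ball of radius `R` around `y` are open. -/
def Opn (G : SimpleGraph V) (p : I) (y : V) (R : ℕ) : Set (Sym2 V → I) :=
  {U | ∀ e ∈ inside G (ball G y R), e ∈ op G p U}

omit [G.LocallyFinite] in
theorem meas_Opn (p : I) (y : V) (R : ℕ) : MeasurableSet (Opn G p y R) :=
  measurableSet_setOfPred.2 (Measurable.forall fun e => measurable_const.imp (meas_op_mem p e))

theorem vol_Iio {p : I} (hp : 0 < p) : (volume : Measure I) (Set.Iio p) ≠ 0 := by
  rw [unitInterval.volume_Iio]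
  exact (ENNReal.ofReal_pos.2 hp).ne'

theorem vol_Ici {p : I} (hp : p < 1) : (volume : Measure I) (Set.Ici p) ≠ 0 := by
  rw [unitInterval.volume_Ici]
  exact (ENNReal.ofReal_pos.2 (sub_pos.2 hp)).ne'

theorem vol_Ico {q p : I} (hp : q < p) : (volume : Measure I) (Set.Ico q p) ≠ 0 := by
  rw [unitInterval.volume_Ico]
  exact (ENNReal.ofReal_pos.2 (sub_pos.2 hp)).ne'

theorem opn_unif (hG : G.Connected) (hqt : IsQuasiTransitive G) {p : I} (hp : 0 < p) (R : ℕ) :
    ∃ c : ℝ≥0∞, c < 1 ∧ ∀ y, unif (Sym2 V) (Opn G p y R)ᶜ ≤ c := by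
  obtain ⟨S, hS⟩ := hqt
  have h1 : ∀ y, unif (Sym2 V) (Opn G p y R)ᶜ < 1 := by
    intro y
    refine lt_of_le_of_ne prob_le_one fun h => ?_
    rw [prob_compl_eq_one_iff (meas_Opn p y R)] at h
    have h2 := unif_pi (inside_finite (G := G) (ball_finite hG y R)).toFinset
      (J := Set.Iio p) measurableSet_Iio
    have h3 : {U : Sym2 V → I | ∀ e ∈ (inside_finite (G := G) (ball_finite hG y R)).toFinset,
        U e ∈ Set.Iio p} ⊆ Opn G p y R :=
      fun U hU e he => ⟨he.1, hU e ((Set.Finite.mem_toFinset _).2 he)⟩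
    rw [measure_mono_null h3 h] at h2
    exact pow_ne_zero _ (vol_Iio hp) h2.symm
  refine ⟨S.sup fun y => unif (Sym2 V) (Opn G p y R)ᶜ,
    (Finset.sup_lt_iff zero_lt_one).2 fun y _ => h1 y, fun x => ?_⟩
  obtain ⟨y, hy, φ, rfl⟩ := hS x
  refine le_trans (measure_mono ?_) ((unif_act φ (meas_Opn p y R).compl).le.trans
    (Finset.le_sup (f := fun y => unif (Sym2 V) (Opn G p y R)ᶜ) hy))
  intro U hU h
  refine hU fun e he => ?_
  induction e using Sym2.ind with
  | _ a b =>
    obtain ⟨a, rfl⟩ := φ.surjective a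
    obtain ⟨b, rfl⟩ := φ.surjective b
    refine (op_act φ p U a b).1 (h _ ⟨φ.map_rel_iff.1 he.1, fun v hv => ?_⟩)
    refine (dist_iso hG φ y v).ge.trans (he.2 _ ?_)
    rcases Sym2.mem_iff.1 hv with rfl | rfl
    · exact Sym2.mem_mk_left _ _
    · exact Sym2.mem_mk_right _ _

/-- The cluster of `x` for the open edges with an end in `W`. -/
def loc (G : SimpleGraph V) (p : I) (x : V) (W : Set V) (U : Sym2 V → I) : Set V :=
  cluster (op G p U ∩ touch W) x

omit [Countable V] [G.LocallyFinite] in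
theorem loc_sub (p : I) (x : V) (W : Set V) (U : Sym2 V → I) :
    loc G p x W U ⊆ insert x (nb G W) := by
  refine cl_closed (Set.mem_insert _ _) fun a _ b hab => Or.inr ?_
  obtain ⟨c, hc, hce⟩ := hab.2
  rcases Sym2.mem_iff.1 hce with rfl | rfl
  · exact Or.inr ⟨c, hc, op_adj hab.1⟩
  · exact Or.inl hc

omit [Countable V] in
theorem loc_finite (p : I) (x : V) {W : Set V} (hW : W.Finite) (U : Sym2 V → I) :
    (loc G p x W U).Finite := ((nb_finite hW).insert x).subset (loc_sub p x W U)

omit [Countable V] [G.LocallyFinite] in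
theorem loc_mono (p : I) (x : V) {W W' : Set V} (h : W ⊆ W') (U : Sym2 V → I) :
    loc G p x W U ⊆ loc G p x W' U :=
  cl_mono (Set.inter_subset_inter_right _ (touch_mono h)) x

omit [Countable V] [G.LocallyFinite] in
theorem loc_le (p : I) (x : V) (W : Set V) (U : Sym2 V → I) :
    loc G p x W U ⊆ cluster (op G p U) x := cl_mono Set.inter_subset_left x

omit [Countable V] [G.LocallyFinite] in
theorem le_loc {p : I} {x : V} {W : Set V} {U : Sym2 V → I} (h : loc G p x W U ⊆ W) :
    cluster (op G p U) x ⊆ loc G p x W U :=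
  cl_closed (cl_self _ _) fun _ ha b hb => cl_step ha ⟨hb, mk_touch (h ha) b⟩

omit [G.LocallyFinite] in
theorem meas_loc (p : I) (x : V) (W C : Set V) : MeasurableSet {U | loc G p x W U = C} :=
  meas_cl_eq (meas_op_inter p _) x C

omit [Countable V] [G.LocallyFinite] in
theorem dep_loc (p : I) (x : V) (W C : Set V) : Dep (touch W) {U | loc G p x W U = C} := by
  intro U U' h hU
  have : op G p U' ∩ touch W = op G p U ∩ touch W :=
    Set.ext fun e => and_congr_left fun he => (op_congr (h e he)).symm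
  show cluster _ x = C
  rw [this]
  exact hU

omit [Countable V] [G.LocallyFinite] in
theorem dep_loc' (p : I) (x : V) (W C : Set V) : Dep (touch C) {U | loc G p x W U = C} := by
  intro U U' h hU
  have hU' : cluster (op G p U ∩ touch W) x = C := hU
  refine (cl_congr fun e he => ?_).trans hU'
  rw [hU'] at he
  exact and_congr_left fun _ => op_congr (h e he)

omit [Countable V] [G.LocallyFinite] in
theorem disj_loc (p : I) (x : V) (W : Set V) {P : Finset V → Prop} :
    Pairwise (Function.onFun Disjoint fun C : {C : Finset V // P C} =>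
      {U | loc G p x W U = (C.1 : Set V)}) := by
  intro C D hCD
  refine Set.disjoint_left.2 fun U hC hD => hCD (Subtype.ext (Finset.coe_injective ?_))
  exact (Eq.symm hC).trans hD

/-- The set `C` contains a ball of radius `R`. -/
def HasBall (G : SimpleGraph V) (R : ℕ) (C : Set V) : Prop := ∃ y, ball G y R ⊆ C

/-- The vertices that lie in no ball of radius `R` with centre at distance more than `m`. -/
def Wn (G : SimpleGraph V) (x : V) (R m : ℕ) : Set V :=
  {v | ∀ y, m < G.dist x y → R < G.dist v y}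

omit [Countable V] [G.LocallyFinite] in
theorem Wn_sub (x : V) (R m : ℕ) : Wn G x R m ⊆ ball G x m := by
  intro v hv
  by_contra h
  have := hv v (not_le.1 h)
  simp at this

omit [Countable V] [G.LocallyFinite] in
theorem sub_Wn (hG : G.Connected) (x : V) (R m : ℕ) : ball G x m ⊆ Wn G x R (m + R) := by
  intro v hv y hy
  have h1 := hG.dist_triangle (u := x) (v := v) (w := y)
  have h2 : G.dist x v ≤ m := hv
  omega

/-- The local cluster leaves `Wn` and contains no ball of radius `R`. -/
def Fm (G : SimpleGraph V) (p : I) (x : V) (R m : ℕ) : Set (Sym2 V → I) :=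
  {U | ¬ loc G p x (Wn G x R m) U ⊆ Wn G x R m ∧ ¬ HasBall G R (loc G p x (Wn G x R m) U)}

theorem Fm_step (hG : G.Connected) {p : I} {x : V} {R : ℕ} {c : ℝ≥0∞}
    (hc : ∀ y, unif (Sym2 V) (Opn G p y R)ᶜ ≤ c) (m : ℕ) :
    unif (Sym2 V) (Fm G p x R (m + 1 + 2 * R + R)) ≤ c * unif (Sym2 V) (Fm G p x R m) := by
  set W := Wn G x R m with hW
  set W' := Wn G x R (m + 1 + 2 * R + R) with hW'
  have hWf : W.Finite := (ball_finite hG x m).subset (Wn_sub x R m)
  have hWW : W ⊆ W' := (Wn_sub x R m).trans ((ball_mono x (by omega)).trans (sub_Wn hG x R _))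
  have hun : Fm G p x R m = ⋃ C : {C : Finset V // ¬ (C : Set V) ⊆ W ∧ ¬ HasBall G R C},
      {U | loc G p x W U = (C.1 : Set V)} := by
    ext U
    rw [Set.mem_iUnion]
    constructor
    · intro hU
      refine ⟨⟨(loc_finite (G := G) p x hWf U).toFinset, ?_⟩, ?_⟩
      · rw [Set.Finite.coe_toFinset]
        exact hU
      · exact (Set.Finite.coe_toFinset _).symm
    · rintro ⟨C, hC⟩
      have hC' : loc G p x W U = (C.1 : Set V) := hC
      have h2 := C.2
      rw [← hC'] at h2
      exact h2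
  have hsub : Fm G p x R (m + 1 + 2 * R + R) ⊆ Fm G p x R m := by
    rintro U ⟨h1, h2⟩
    refine ⟨fun h => h1 ?_, fun ⟨y, hy⟩ => h2 ⟨y, hy.trans (loc_mono p x hWW U)⟩⟩
    exact (loc_le p x W' U).trans ((le_loc h).trans (h.trans hWW))
  rw [hun] at hsub ⊢
  refine le_of_values _ _ (fun C => meas_loc p x W _) (disj_loc p x W) hsub c fun C => ?_
  obtain ⟨z, hzC, hzW⟩ := Set.not_subset.1 C.2.1
  obtain ⟨y, hy1, hy2⟩ : ∃ y, m < G.dist x y ∧ G.dist z y ≤ R := by
    by_contra h
    push Not at h
    exact hzW h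
  have hdep : Dep (touch W)ᶜ (Opn G p y R)ᶜ := by
    refine Dep.compl fun U U' h hU e he => (op_congr (h e ?_)).1 (hU e he)
    rintro ⟨v, hv, hve⟩
    have h1 : G.dist y v ≤ R := he.2 v hve
    have h2 := hv y hy1
    rw [dist_comm] at h2
    omega
  refine le_trans (measure_mono (t := {U | loc G p x W U = (C.1 : Set V)} ∩ (Opn G p y R)ᶜ) ?_) ?_
  · rintro U ⟨hU, hC⟩
    refine ⟨hC, fun hO => hU.2 ⟨y, ?_⟩⟩
    have hC' : loc G p x W U = (C.1 : Set V) := hC
    have hz : z ∈ loc G p x W U := hC' ▸ hzC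
    have hzd : G.dist x z ≤ m + 1 := by
      rcases loc_sub p x W U hz with rfl | h | ⟨a, ha, h⟩
      · simp
      · exact absurd h hzW
      · have h1 : G.dist x a ≤ m := Wn_sub x R m ha
        have h2 := dist_adj hG x h
        omega
    have hb : ball G y R ⊆ cluster (op G p U ∩ touch W') y := by
      refine ball_sub_cl hG fun e he => ⟨hO e he, ?_⟩
      induction e using Sym2.ind with
      | _ a b =>
        refine mk_touch (sub_Wn hG x R _ ?_) b
        have h1 : G.dist y a ≤ R := he.2 a (Sym2.mem_mk_left a b)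
        have h2 := hG.dist_triangle (u := x) (v := z) (w := y)
        have h3 := hG.dist_triangle (u := x) (v := y) (w := a)
        show G.dist x a ≤ _
        omega
    have hzy : z ∈ cluster (op G p U ∩ touch W') y := hb (by
      show G.dist y z ≤ R
      rwa [dist_comm])
    exact fun v hv => cl_trans (cl_trans (loc_mono p x hWW U hz) (cl_symm hzy)) (hb hv)
  · rw [indep_dep (meas_loc p x W C.1) (meas_Opn p y R).compl (dep_loc p x W C.1) hdep, mul_comm]
    exact mul_le_mul_left (hc y) _

/-- Almost surely an infinite cluster contains a ball of radius `R`. -/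
theorem no_ball (hG : G.Connected) (hqt : IsQuasiTransitive G) {p : I} (hp : 0 < p) (x : V)
    (R : ℕ) : unif (Sym2 V)
      {U | (cluster (op G p U) x).Infinite ∧ ¬ HasBall G R (cluster (op G p U) x)} = 0 := by
  obtain ⟨c, hc1, hc⟩ := opn_unif hG hqt hp R
  have h1 : ∀ k : ℕ, ∃ m, unif (Sym2 V) (Fm G p x R m) ≤ c ^ k := by
    intro k
    induction k with
    | zero => exact ⟨0, by rw [pow_zero]; exact prob_le_one⟩
    | succ k ih =>
      obtain ⟨m, hm⟩ := ih
      refine ⟨_, (Fm_step hG hc m).trans ?_⟩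
      rw [pow_succ']
      exact mul_le_mul_right hm c
  refine le_antisymm (ge_of_tendsto' (ENNReal.tendsto_pow_atTop_nhds_zero_of_lt_one hc1)
    fun k => ?_) bot_le
  obtain ⟨m, hm⟩ := h1 k
  refine le_trans (measure_mono ?_) hm
  rintro U ⟨h2, h3⟩
  refine ⟨fun h => h2 ?_, fun ⟨y, hy⟩ => h3 ⟨y, hy.trans (loc_le _ _ _ _)⟩⟩
  exact ((ball_finite hG x m).subset (Wn_sub x R m)).subset ((le_loc h).trans h)

/-- The cluster of `x` at level `p` is infinite and stays away from the infinite clusters at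
level `q`. -/
def Away (G : SimpleGraph V) (q p : I) (x : V) : Set (Sym2 V → I) :=
  {U | (cluster (op G p U) x).Infinite ∧
    ∀ w ∈ nb G (cluster (op G p U) x), (cluster (op G q U) w).Finite}

omit [G.LocallyFinite] in
theorem meas_Away (q p : I) (x : V) : MeasurableSet (Away G q p x) :=
  measurableSet_setOfPred.2 ((meas_infinite (meas_op p) x).and (Measurable.forall fun w =>
    ((meas_cl (meas_op p) x w).or (Measurable.exists fun a =>
      (meas_cl (meas_op p) x a).and measurable_const)).imp (meas_finite (meas_op q) w)))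

theorem away_loc (hG : G.Connected) {q p : I} {x : V} {R : ℕ} {ε : ℝ≥0∞}
    (hR : ∀ y, unif (Sym2 V) (Seed G q y R)ᶜ ≤ ε) (n : ℕ) :
    unif (Sym2 V) (Away G q p x ∩ {U | HasBall G R (loc G p x (ball G x n) U)}) ≤ ε := by
  refine le_trans (le_of_values _ (fun C : {C : Finset V // HasBall G R C} =>
    {U | loc G p x (ball G x n) U = (C.1 : Set V)}) (fun C => meas_loc p x _ C.1)
    (disj_loc p x _) ?_ ε fun C => ?_) ?_
  · rintro U ⟨-, hU⟩
    refine Set.mem_iUnion.2 ⟨⟨(loc_finite (G := G) p x (ball_finite hG x n) U).toFinset, ?_⟩, ?_⟩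
    · rw [Set.Finite.coe_toFinset]
      exact hU
    · exact (Set.Finite.coe_toFinset _).symm
  · obtain ⟨y, hy⟩ := C.2
    set J : Set (Sym2 V → I) := {U | ∃ v, v ∈ nb G (C.1 : Set V) ∧
      (cluster (op G q U ∩ (touch (C.1 : Set V))ᶜ) v).Infinite} with hJ
    have hJm : MeasurableSet J := measurableSet_setOfPred.2
      (Measurable.exists fun v => measurable_const.and (meas_infinite (meas_op_inter q _) v))
    have hJd : Dep (touch (C.1 : Set V))ᶜ J := by
      rintro U U' h ⟨v, hv, hU⟩
      have : op G q U' ∩ (touch (C.1 : Set V))ᶜ = op G q U ∩ (touch (C.1 : Set V))ᶜ :=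
        Set.ext fun e => and_congr_left fun he => (op_congr (h e he)).symm
      exact ⟨v, hv, this ▸ hU⟩
    refine le_trans (measure_mono
      (t := {U | loc G p x (ball G x n) U = (C.1 : Set V)} ∩ Jᶜ) ?_) ?_
    · rintro U ⟨⟨hU, -⟩, hC⟩
      refine ⟨hC, fun ⟨v, hv, hinf⟩ => hinf ?_⟩
      have hC' : loc G p x (ball G x n) U = (C.1 : Set V) := hC
      exact (hU.2 v (nb_mono (hC' ▸ loc_le p x _ U) hv)).subset (cl_mono Set.inter_subset_left v)
    · rw [indep_dep (meas_loc p x _ C.1) hJm.compl (dep_loc' p x _ C.1) hJd.compl, mul_comm]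
      refine mul_le_mul_left (le_trans (measure_mono (Set.compl_subset_compl.2 ?_)) (hR y)) _
      rintro U ⟨w, hw, hinf⟩
      exact last_exit (fun e he => he.1) C.1.finite_toSet (hy hw) hinf
  · exact (mul_le_mul_right prob_le_one ε).trans (mul_one ε).le

theorem away_null (hG : G.Connected) (hqt : IsQuasiTransitive G) {q p : I} (hp : 0 < p)
    (hperc : unif (Sym2 V) {U | ∀ w, (cluster (op G q U) w).Finite} = 0) (x : V) :
    unif (Sym2 V) (Away G q p x) = 0 := by
  refine le_antisymm (le_of_forall_gt_imp_ge_of_dense fun ε hε => ?_) bot_le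
  obtain ⟨R, hR⟩ := seed_unif hG hqt hperc hε
  have hmono : Monotone fun n =>
      Away G q p x ∩ {U | HasBall G R (loc G p x (ball G x n) U)} := by
    rintro a b hab U ⟨h1, y, hy⟩
    exact ⟨h1, y, hy.trans (loc_mono p x (ball_mono x hab) U)⟩
  have hsub : Away G q p x ⊆
      (⋃ n, Away G q p x ∩ {U | HasBall G R (loc G p x (ball G x n) U)}) ∪
      {U | (cluster (op G p U) x).Infinite ∧ ¬ HasBall G R (cluster (op G p U) x)} := by
    intro U hU
    by_cases h : HasBall G R (cluster (op G p U) x)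
    · obtain ⟨y, hy⟩ := h
      have h1 : cluster (op G p U) x ⊆ {v | ∃ n, v ∈ loc G p x (ball G x n) U} := by
        refine cl_closed ⟨0, cl_self _ _⟩ ?_
        rintro a ⟨n, ha⟩ b hab
        exact ⟨max n (G.dist x a), cl_step (loc_mono p x (ball_mono x (le_max_left _ _)) U ha)
          ⟨hab, mk_touch (C := ball G x (max n (G.dist x a))) (le_max_right n (G.dist x a)) b⟩⟩
      choose! f hf using fun v (hv : v ∈ ball G y R) => h1 (hy hv)
      obtain ⟨n, hn⟩ := ((ball_finite hG y R).image f).bddAbove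
      exact Or.inl (Set.mem_iUnion.2 ⟨n, hU, y, fun v hv =>
        loc_mono p x (ball_mono x (hn (Set.mem_image_of_mem f hv))) U (hf v hv)⟩)
    · exact Or.inr ⟨hU.1, h⟩
  refine (measure_mono hsub).trans ((measure_union_le _ _).trans ?_)
  rw [no_ball hG hqt hp x R, add_zero, hmono.measure_iUnion]
  exact iSup_le fun n => away_loc hG hR n

end Vale.Agent.N151
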