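import Mathlib
import Vale.Agent.N151.Stab

/-!
# P151: stability of infinite clusters, and the number of infinite clusters
-/

namespace Vale.Agent.N151

open MeasureTheory ProbabilityTheory unitInterval SimpleGraph Vale.Agent.P151 Filter Topology
open scoped ENNReal

variable {V : Type} [Countable V] {G : SimpleGraph V} [G.LocallyFinite]

instance countableSym2 : Countable (Sym2 V) := by
  unfold Sym2
  infer_instance

omit [Countable V] [G.LocallyFinite] in
theorem mem_op_one {F : Finset (Sym2 V)} {r : I} {U : Sym2 V → I} {e : Sym2 V} :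
    e ∈ op G r (setT F 1 U) ↔ e ∈ op G r U ∧ e ∉ F := by
  by_cases h : e ∈ F
  · simp only [op, Set.mem_ofPred_eq, setT_mem h, h, not_true, and_false, iff_false, not_and,
      not_lt]
    exact fun _ => le_one r
  · simp only [op, Set.mem_ofPred_eq, setT_not h, h, not_false_iff, and_true]

omit [Countable V] [G.LocallyFinite] in
theorem op_one_eq {F : Finset (Sym2 V)} {r : I} {U : Sym2 V → I} (h : ∀ e ∈ F, r ≤ U e) :
    op G r (setT F 1 U) = op G r U := by
  ext e
  rw [mem_op_one]
  exact ⟨fun he => he.1, fun he => ⟨he, fun hF => absurd he.2 (not_lt.2 (h e hF))⟩⟩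

/-- The cluster of `x` at level `p` is infinite and contains no infinite cluster of level `q`. -/
def Bad (G : SimpleGraph V) (q p : I) (x : V) : Set (Sym2 V → I) :=
  {U | (cluster (op G p U) x).Infinite ∧
    ∀ z ∈ cluster (op G p U) x, (cluster (op G q U) z).Finite}

/-- In addition, the edge `e` joins the cluster to an infinite cluster of level `q`. -/
def BadE (G : SimpleGraph V) (q p : I) (x : V) (e : Sym2 V) : Set (Sym2 V → I) :=
  {U | U ∈ Bad G q p x ∧ ∃ a z, e = s(a, z) ∧ G.Adj a z ∧ a ∈ cluster (op G p U) x ∧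
    (cluster (op G q U) z).Infinite}

omit [G.LocallyFinite] in
theorem meas_Bad (q p : I) (x : V) : MeasurableSet (Bad G q p x) :=
  measurableSet_setOfPred.2 ((meas_infinite (meas_op p) x).and (Measurable.forall fun w =>
    (meas_cl (meas_op p) x w).imp (meas_finite (meas_op q) w)))

omit [G.LocallyFinite] in
theorem meas_BadE (q p : I) (x : V) (e : Sym2 V) : MeasurableSet (BadE G q p x e) :=
  (meas_Bad q p x).inter (measurableSet_setOfPred.2 (Measurable.exists fun a =>
    Measurable.exists fun z => measurable_const.and (measurable_const.and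
      ((meas_cl (meas_op p) x a).and (meas_infinite (meas_op q) z)))))

omit [Countable V] [G.LocallyFinite] in
theorem BadE_closed {q p : I} {x : V} {e : Sym2 V} {U : Sym2 V → I} (h : U ∈ BadE G q p x e) :
    p ≤ U e := by
  obtain ⟨hB, a, z, rfl, hadj, ha, hz⟩ := h
  by_contra hlt
  exact hz (hB.2 z (cl_step ha ⟨hadj, not_le.1 hlt⟩))

omit [Countable V] [G.LocallyFinite] in
theorem BadE_disj {q p : I} {x : V} : Pairwise (Function.onFun Disjoint fun e : Sym2 V =>
    {U : Sym2 V → I | ∀ e' ∈ ({e} : Finset (Sym2 V)), U e' ∈ Set.Ico q p} ∩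
      setT {e} 1 ⁻¹' BadE G q p x e) := by
  intro e f hef
  refine Set.disjoint_left.2 ?_
  rintro U ⟨he, hBe, a', z', rfl, -, -, hz'⟩ ⟨hf, hBf, a, z, rfl, hadj, ha, hz⟩
  have e1 : op G q (setT {s(a', z')} 1 U) = op G q U := op_one_eq fun e he' => (he e he').1
  have e2 : op G q (setT {s(a, z)} 1 U) = op G q U := op_one_eq fun e he' => (hf e he').1
  have h1 : cluster (op G p (setT {s(a, z)} 1 U)) x ⊆
      cluster (op G p (setT {s(a, z)} 1 U)) x ∩ cluster (op G p (setT {s(a', z')} 1 U)) x := by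
    refine cl_closed ⟨cl_self _ _, cl_self _ _⟩ fun b hb c hbc => ⟨cl_step hb.1 hbc, ?_⟩
    refine cl_step hb.2 (mem_op_one.2 ⟨(mem_op_one.1 hbc).1, fun h => ?_⟩)
    have h2 : z' ∈ cluster (op G p (setT {s(a, z)} 1 U)) x := by
      have h3 : z' ∈ s(b, c) := by
        rw [Finset.mem_singleton.1 h]
        exact Sym2.mem_mk_right _ _
      rcases Sym2.mem_iff.1 h3 with rfl | rfl
      · exact hb.1
      · exact cl_step hb.1 hbc
    have h4 := hBf.2 z' h2
    rw [e2] at h4
    rw [e1] at hz'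
    exact hz' h4
  have h5 : z ∈ cluster (op G p (setT {s(a', z')} 1 U)) x :=
    cl_step (h1 ha).2 (mem_op_one.2 ⟨⟨hadj, (hf _ (Finset.mem_singleton_self _)).2⟩,
      fun h => hef (Finset.mem_singleton.1 h).symm⟩)
  have h6 := hBe.2 z h5
  rw [e1] at h6
  rw [e2] at hz
  exact hz h6

omit [G.LocallyFinite] in
theorem BadE_sum {q p : I} (hqp : q < p) (x : V) :
    ∑' e, unif (Sym2 V) (BadE G q p x e) ≠ ∞ := by
  have h1 : volume (Set.Ico q p) * ∑' e, unif (Sym2 V) (BadE G q p x e) ≤ 1 := by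
    rw [← ENNReal.tsum_mul_left]
    refine le_trans (ENNReal.tsum_le_tsum fun e => ?_)
      ((measure_iUnion (μ := unif (Sym2 V)) (BadE_disj (G := G) (q := q) (p := p) (x := x))
        fun e => (meas_pi _ measurableSet_Ico).inter
          (meas_setT _ _ (meas_BadE q p x e))).ge.trans prob_le_one)
    rw [unif_setT _ _ measurableSet_Ico (meas_BadE q p x e), Finset.card_singleton, pow_one]
    refine mul_le_mul_right (measure_mono fun U hU => ?_) _
    have h2 : ∀ e' ∈ ({e} : Finset (Sym2 V)), p ≤ U e' := fun e' he' => by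
      rw [Finset.mem_singleton.1 he']
      exact BadE_closed hU
    show setT {e} 1 U ∈ BadE G q p x e
    simp only [BadE, Bad, Set.mem_ofPred_eq, op_one_eq h2,
      op_one_eq fun e' he' => hqp.le.trans (h2 e' he')]
    exact hU
  intro h
  rw [h, ENNReal.mul_top (vol_Ico hqp)] at h1
  exact absurd h1 (by simp)

theorem bad_null_lt (hG : G.Connected) (hqt : IsQuasiTransitive G) {q p : I} (hqp : q < p)
    (hp1 : p < 1) (hperc : unif (Sym2 V) {U | ∀ w, (cluster (op G q U) w).Finite} = 0) (x : V) :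
    unif (Sym2 V) (Bad G q p x) = 0 := by
  have h0 := away_null hG hqt ((nonneg' : 0 ≤ q).trans_lt hqp) hperc x
  have h1 : unif (Sym2 V) (⋃ F : Finset (Sym2 V), setT F 1 ⁻¹' Away G q p x) = 0 := by
    refine measure_iUnion_null fun F => null_setT F 1 measurableSet_Ici (vol_Ici hp1)
      (meas_Away q p x) h0 fun U hU h => ?_
    simpa only [Away, Set.mem_ofPred_eq, op_one_eq hU,
      op_one_eq fun e he => hqp.le.trans (hU e he)] using h
  refine measure_mono_null_ae ?_ h1
  filter_upwards [ae_finite_setOfPred_mem (BadE_sum (G := G) hqp x)] with U hfin hU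
  have hU' : U ∈ Bad G q p x := hU
  set Z : Set V := {z | (cluster (op G q U) z).Infinite ∧
    ∃ a ∈ cluster (op G p U) x, G.Adj a z} with hZ
  have hZf : Z.Finite := by
    refine (hfin.biUnion (t := fun e => {v | v ∈ e}) fun e _ => ?_).subset ?_
    · induction e using Sym2.ind with
      | _ a b => exact (Set.toFinite {a, b}).subset fun v hv => Sym2.mem_iff.1 hv
    · rintro z ⟨hz, a, ha, hadj⟩
      exact Set.mem_biUnion (x := s(a, z)) ⟨hU', a, z, rfl, hadj, ha, hz⟩
        (Sym2.mem_mk_right a z)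
  set F := (edges_finite (G := G) hZf).toFinset with hF
  have hmem : ∀ e, e ∈ F ↔ e ∈ G.edgeSet ∧ e ∈ touch Z := fun e => Set.Finite.mem_toFinset _
  refine Set.mem_iUnion.2 ⟨F, ?_⟩
  have hK : cluster (op G p (setT F 1 U)) x = cluster (op G p U) x := by
    refine Set.Subset.antisymm (cl_mono (fun e he => (mem_op_one.1 he).1) x) ?_
    have : cluster (op G p U) x ⊆ cluster (op G p U) x ∩ cluster (op G p (setT F 1 U)) x := by
      refine cl_closed ⟨cl_self _ _, cl_self _ _⟩ fun a ha b hab => ⟨cl_step ha.1 hab, ?_⟩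
      refine cl_step ha.2 (mem_op_one.2 ⟨hab, fun h => ?_⟩)
      obtain ⟨v, hv, hve⟩ := ((hmem _).1 h).2
      rcases Sym2.mem_iff.1 hve with rfl | rfl
      · exact hv.1 (hU'.2 _ ha.1)
      · exact hv.1 (hU'.2 _ (cl_step ha.1 hab))
    exact fun y hy => (this hy).2
  show setT F 1 U ∈ Away G q p x
  refine ⟨hK ▸ hU'.1, fun w hw => ?_⟩
  rw [hK] at hw
  have hsub : cluster (op G q (setT F 1 U)) w ⊆ cluster (op G q U) w :=
    cl_mono (fun e he => (mem_op_one.1 he).1) w
  by_cases hw' : (cluster (op G q U) w).Finite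
  · exact hw'.subset hsub
  · rcases hw with hw | hw
    · exact absurd (hU'.2 w hw) hw'
    · refine (Set.finite_singleton w).subset (cl_closed rfl ?_)
      rintro a rfl b hab
      exact absurd ((hmem _).2 ⟨(mem_op_one.1 hab).1.1, mk_touch (C := Z) ⟨hw', hw⟩ b⟩)
        (mem_op_one.1 hab).2

omit [G.LocallyFinite] in
theorem ae_lt_one : ∀ᵐ U ∂(unif (Sym2 V)), ∀ e, U e < 1 := by
  rw [ae_all_iff]
  intro e
  have h := unif_pi ({e} : Finset (Sym2 V)) (J := Set.Ici 1) measurableSet_Ici
  rw [unitInterval.volume_Ici] at h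
  simp only [Finset.mem_singleton, forall_eq, Set.mem_Ici, Finset.card_singleton, pow_one,
    Set.Icc.coe_one, sub_self, ENNReal.ofReal_zero] at h
  rw [ae_iff]
  simpa only [not_lt] using h

omit [Countable V] [G.LocallyFinite] in
theorem cl_one (hG : G.Connected) {U : Sym2 V → I} (h : ∀ e, U e < 1) (x y : V) :
    y ∈ cluster (op G 1 U) x := by
  have : op G 1 U = G.edgeSet := Set.ext fun e => ⟨fun he => he.1, fun he => ⟨he, h e⟩⟩
  show (fromEdgeSet (op G 1 U)).Reachable x y
  rw [this, fromEdgeSet_edgeSet]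
  exact hG x y

/-- **Stability of infinite clusters.** -/
theorem stab (hG : G.Connected) (hqt : IsQuasiTransitive G) {q p : I} (hqp : q ≤ p)
    (hperc : unif (Sym2 V) {U | ∀ w, (cluster (op G q U) w).Finite} = 0) :
    ∀ᵐ U ∂(unif (Sym2 V)), ∀ x, (cluster (op G p U) x).Infinite →
      ∃ z ∈ cluster (op G p U) x, (cluster (op G q U) z).Infinite := by
  rcases hqp.eq_or_lt with rfl | hlt
  · exact Eventually.of_forall fun U x hx => ⟨x, cl_self _ _, hx⟩
  rcases (le_one p).eq_or_lt with h1 | h1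
  · have h2 : p = 1 := Subtype.ext h1
    subst h2
    filter_upwards [ae_lt_one (V := V), measure_eq_zero_iff_ae_notMem.1 hperc] with U hU h x _
    obtain ⟨z, hz⟩ := not_forall.1 h
    exact ⟨z, cl_one hG hU x z, hz⟩
  · rw [ae_all_iff]
    intro x
    filter_upwards [measure_eq_zero_iff_ae_notMem.1 (bad_null_lt hG hqt hlt h1 hperc x)]
      with U hU hx
    by_contra h
    push Not at h
    exact hU ⟨hx, h⟩

/-! ### The number of infinite clusters -/

/-- The set of the infinite clusters. -/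
def infCl (ω : Set (Sym2 V)) : Set (Set V) := {C | ∃ x, C = cluster ω x ∧ C.Infinite}

omit [Countable V] in
theorem le_infCl [Nonempty V] (ω : Set (Sym2 V)) (k : ℕ) : (k : ℕ∞) ≤ (infCl ω).encard ↔
    ∃ T : Finset V, T.card = k ∧ (∀ x, x ∈ T → (cluster ω x).Infinite) ∧
      ∀ x, x ∈ T → ∀ y, y ∈ T → y ∈ cluster ω x → x = y := by
  classical
  constructor
  · intro h
    obtain ⟨t, ht, hk⟩ := Set.exists_subset_encard_eq h
    have htf : t.Finite := Set.finite_of_encard_eq_coe hk
    choose! r hr using fun C (hC : C ∈ t) => ht hC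
    have hinj : Set.InjOn r t := fun C hC D hD h => by rw [(hr C hC).1, (hr D hD).1, h]
    refine ⟨htf.toFinset.image r, ?_, ?_, ?_⟩
    · rw [Finset.card_image_of_injOn (by rwa [Set.Finite.coe_toFinset])]
      rw [htf.encard_eq_coe_toFinset_card] at hk
      exact_mod_cast hk
    · intro x hx
      obtain ⟨C, hC, rfl⟩ := Finset.mem_image.1 hx
      have hC' := htf.mem_toFinset.1 hC
      exact (hr C hC').1 ▸ (hr C hC').2
    · intro x hx y hy hxy
      obtain ⟨C, hC, rfl⟩ := Finset.mem_image.1 hx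
      obtain ⟨D, hD, rfl⟩ := Finset.mem_image.1 hy
      have : C = D := by
        rw [(hr C (htf.mem_toFinset.1 hC)).1, (hr D (htf.mem_toFinset.1 hD)).1]
        exact (cl_eq hxy).symm
      rw [this]
  · rintro ⟨T, rfl, h1, h2⟩
    have hinj : Set.InjOn (cluster ω) (T : Set V) := fun x hx y hy h =>
      h2 x hx y hy (h ▸ cl_self ω y)
    rw [← Set.encard_coe_eq_coe_finsetCard, ← hinj.encard_image]
    refine Set.encard_le_encard ?_
    rintro _ ⟨x, hx, rfl⟩
    exact ⟨x, rfl, h1 x hx⟩

theorem meas_le [Nonempty V] (k : ℕ) : MeasurableSet {ω : Set (Sym2 V) | (k : ℕ∞) ≤ (infCl ω).encard} := by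
  simp only [le_infCl]
  have h1 : ∀ x : V, Measurable fun ω : Set (Sym2 V) => (cluster ω x).Infinite := fun x =>
    measurableSet_setOfPred.1 (P151W95.meas_inf x)
  have h2 : ∀ x y : V, Measurable fun ω : Set (Sym2 V) => y ∈ cluster ω x := fun x y =>
    measurableSet_setOfPred.1 (P151W95.meas_reach x y)
  exact measurableSet_setOfPred.2 (Measurable.exists fun T => measurable_const.and
    ((Measurable.forall fun x => measurable_const.imp (h1 x)).and
      (Measurable.forall fun x => measurable_const.imp (Measurable.forall fun y =>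
        measurable_const.imp ((h2 x y).imp measurable_const)))))

omit [Countable V] [G.LocallyFinite] in
theorem infCl_act (φ : G ≃g G) (p : I) (U : Sym2 V → I) :
    (infCl (op G p (act φ U))).encard = (infCl (op G p U)).encard := by
  have h1 : ∀ x, cluster (op G p (act φ U)) x = φ ⁻¹' cluster (op G p U) (φ x) :=
    fun x => Set.ext fun y => cl_act φ p U x y
  have h2 : infCl (op G p (act φ U)) = (fun C => φ ⁻¹' C) '' infCl (op G p U) := by
    ext C
    constructor
    · rintro ⟨x, rfl, hx⟩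
      exact ⟨_, ⟨φ x, rfl, (inf_act φ p U x).1 hx⟩, (h1 x).symm⟩
    · rintro ⟨_, ⟨y, rfl, hy⟩, rfl⟩
      obtain ⟨x, rfl⟩ := φ.surjective y
      have h3 := (inf_act φ p U x).2 hy
      rw [h1 x] at h3
      exact ⟨x, (h1 x).symm, h3⟩
  rw [h2, (Set.preimage_injective.2 φ.surjective).encard_image]

omit [Countable V] in
theorem exists_move [Infinite V] (hG : G.Connected) (hqt : IsQuasiTransitive G)
    (F : Finset (Sym2 V)) : ∃ φ : G ≃g G, ∀ e ∈ F, Sym2.map φ e ∉ F := by
  obtain ⟨S, hS⟩ := hqt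
  obtain ⟨o⟩ := hG.nonempty
  have hC : (⋃ e ∈ (F : Set (Sym2 V)), {v | v ∈ e}).Finite := by
    refine F.finite_toSet.biUnion fun e _ => ?_
    induction e using Sym2.ind with
    | _ a b => exact (Set.toFinite {a, b}).subset fun v hv => Sym2.mem_iff.1 hv
  obtain ⟨n, hn⟩ := sub_ball (G := G) o hC
  obtain ⟨m, hm⟩ := sub_ball (G := G) o S.finite_toSet
  obtain ⟨φ, hφ⟩ : ∃ φ : G ≃g G, 2 * n < G.dist o (φ o) := by
    by_contra h
    push Not at h
    refine Set.infinite_univ ((ball_finite hG o (2 * n + m)).subset fun x _ => ?_)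
    obtain ⟨y, hy, φ, rfl⟩ := hS x
    have h1 := hG.dist_triangle (u := o) (v := φ o) (w := φ y)
    have h2 : G.dist o y ≤ m := hm hy
    have h3 := h φ
    rw [dist_iso hG] at h1
    show G.dist o (φ y) ≤ _
    omega
  refine ⟨φ, fun e he h => ?_⟩
  induction e using Sym2.ind with
  | _ a b =>
    have h1 : G.dist o a ≤ n := hn (Set.mem_biUnion he (Sym2.mem_mk_left a b))
    have h2 : G.dist o (φ a) ≤ n := hn (Set.mem_biUnion h (Sym2.mem_mk_left (φ a) (φ b)))
    have h3 := hG.dist_triangle (u := o) (v := φ a) (w := φ o)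
    rw [dist_iso hG, dist_comm (u := a)] at h3
    omega

/-- At least `k` infinite clusters at level `p`. -/
def Ek (G : SimpleGraph V) (p : I) (k : ℕ) : Set (Sym2 V → I) :=
  {U | (k : ℕ∞) ≤ (infCl (op G p U)).encard}

omit [G.LocallyFinite] in
theorem meas_Ek [Nonempty V] (p : I) (k : ℕ) : MeasurableSet (Ek G p k) := meas_op p (meas_le k)

theorem Ek_zero_one [Infinite V] (hG : G.Connected) (hqt : IsQuasiTransitive G) (p : I) (k : ℕ) :
    unif (Sym2 V) (Ek G p k) = 0 ∨ unif (Sym2 V) (Ek G p k) = 1 := by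
  refine zero_one (meas_Ek p k) fun F => ?_
  obtain ⟨φ, hφ⟩ := exists_move hG hqt F
  refine ⟨Sym2.map φ, Sym2.map.injective φ.injective, ?_, hφ⟩
  ext U
  show (k : ℕ∞) ≤ (infCl (op G p (act φ U))).encard ↔ (k : ℕ∞) ≤ (infCl (op G p U)).encard
  rw [infCl_act]

omit [Countable V] in
/-- Joining two infinite clusters by finitely many edges lowers their number. -/
theorem merge {ω ω' : Set (Sym2 V)} (h : ω ⊆ ω') {C : Set V} (hC : C.Finite)
    (hω : ∀ e ∈ ω', e ∈ ω ∨ ∀ v ∈ e, v ∈ C) {u v : V} (hu : (cluster ω u).Infinite)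
    (hv : (cluster ω v).Infinite) (huv : v ∉ cluster ω u) (huv' : v ∈ cluster ω' u) :
    (infCl ω').encard + 1 ≤ (infCl ω).encard := by
  have hπ : ∀ x, (⋃ y ∈ cluster ω x, cluster ω' y) = cluster ω' x := fun x =>
    Set.Subset.antisymm (Set.iUnion₂_subset fun y hy => (cl_eq (cl_mono h x hy)).le)
      (Set.subset_biUnion_of_mem (u := fun y => cluster ω' y) (cl_self ω x))
  have h1 : infCl ω' ⊆ (fun D => ⋃ y ∈ D, cluster ω' y) '' (infCl ω \ {cluster ω v}) := by
    rintro _ ⟨x, rfl, hx⟩
    obtain ⟨z, hz, hzi⟩ : ∃ z ∈ cluster ω' x, (cluster ω z).Infinite := by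
      by_contra hcon
      push Not at hcon
      refine hx ((((hC.insert x).inter_of_left (cluster ω' x)).biUnion
        fun z hz => hcon z hz.2).subset ?_)
      have : cluster ω' x ⊆ cluster ω' x ∩ ⋃ z ∈ insert x C ∩ cluster ω' x, cluster ω z := by
        refine cl_closed ⟨cl_self _ _, Set.mem_biUnion ⟨Set.mem_insert _ _, cl_self _ _⟩
          (cl_self _ _)⟩ fun a ha b hab => ⟨cl_step ha.1 hab, ?_⟩
        rcases hω _ hab with h2 | h2
        · obtain ⟨z, hz, haz⟩ := Set.mem_iUnion₂.1 ha.2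
          exact Set.mem_biUnion hz (cl_step haz h2)
        · exact Set.mem_biUnion ⟨Or.inr (h2 b (Sym2.mem_mk_right a b)), cl_step ha.1 hab⟩
            (cl_self _ _)
      exact fun y hy => (this hy).2
    by_cases h3 : cluster ω z = cluster ω v
    · refine ⟨cluster ω u, ⟨⟨u, rfl, hu⟩, fun h4 => huv ?_⟩, ?_⟩
      · rw [Set.mem_singleton_iff.1 h4]
        exact cl_self _ _
      · have h5 : v ∈ cluster ω' z := cl_mono h z (h3 ▸ cl_self ω v)
        show (⋃ y ∈ cluster ω u, cluster ω' y) = _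
        rw [hπ, ← cl_eq huv', cl_eq h5, cl_eq hz]
    · refine ⟨cluster ω z, ⟨⟨z, rfl, hzi⟩, h3⟩, ?_⟩
      show (⋃ y ∈ cluster ω z, cluster ω' y) = _
      rw [hπ, cl_eq hz]
  rw [← Set.encard_sdiff_singleton_add_one (s := infCl ω) (a := cluster ω v) ⟨v, rfl, hv⟩]
  exact add_le_add_left ((Set.encard_le_encard h1).trans (Set.encard_image_le _ _)) 1

theorem Ek_succ [Infinite V] (hG : G.Connected) (hqt : IsQuasiTransitive G) {p : I}
    (h2 : unif (Sym2 V) (Ek G p 2) ≠ 0) {k : ℕ} (hk : unif (Sym2 V) (Ek G p k) = 1) :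
    unif (Sym2 V) (Ek G p (k + 1)) = 1 := by
  classical
  refine (Ek_zero_one hG hqt p (k + 1)).resolve_left fun h0 => h2 ?_
  obtain ⟨o⟩ := hG.nonempty
  have hk' : unif (Sym2 V) (Ek G p k)ᶜ = 0 := (prob_compl_eq_zero_iff (meas_Ek p k)).2 hk
  rcases (nonneg' : 0 ≤ p).eq_or_lt with hp | hp
  · refine measure_mono_null (fun U hU => ?_) measure_empty
    obtain ⟨T, hT, h1, -⟩ := (le_infCl _ 2).1 hU
    obtain ⟨x, hx⟩ := Finset.card_pos.1 (show 0 < T.card by omega)
    refine h1 x hx ((Set.finite_singleton x).subset (cl_closed rfl fun a _ b hab => ?_))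
    exact absurd hab.2 (not_lt.2 (hp ▸ nonneg'))
  have h1 : unif (Sym2 V) (⋃ n : ℕ, setT (inside_finite (G := G) (ball_finite hG o n)).toFinset 0
      ⁻¹' (Ek G p k)ᶜ) = 0 := by
    refine measure_iUnion_null fun n => null_setT _ 0 measurableSet_Iio (vol_Iio hp)
      (meas_Ek p k).compl hk' fun U hU h => ?_
    have : op G p (setT (inside_finite (G := G) (ball_finite hG o n)).toFinset 0 U) =
        op G p U := by
      ext e
      by_cases he : e ∈ (inside_finite (G := G) (ball_finite hG o n)).toFinset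
      · exact and_congr_right fun _ => iff_of_true (by rw [setT_mem he]; exact hp) (hU e he)
      · exact op_congr (setT_not he)
    simpa only [Ek, Set.mem_compl_iff, Set.mem_ofPred_eq, this] using h
  refine measure_mono_null (fun U hU => ?_) (measure_union_null h0 h1)
  obtain ⟨T, hT, h3, h4⟩ := (le_infCl _ 2).1 hU
  obtain ⟨u, v, huv, rfl⟩ := Finset.card_eq_two.1 hT
  have hu : u ∈ ({u, v} : Finset V) := by simp
  have hv : v ∈ ({u, v} : Finset V) := by simp
  set n := max (G.dist o u) (G.dist o v) with hn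
  set F := (inside_finite (G := G) (ball_finite hG o n)).toFinset with hF
  have hFm : ∀ e, e ∈ F ↔ e ∈ inside G (ball G o n) := fun e => Set.Finite.mem_toFinset _
  have hb : ball G o n ⊆ cluster (op G p (setT F 0 U)) o :=
    ball_sub_cl hG fun e he => ⟨he.1, by rw [setT_mem ((hFm e).2 he)]; exact hp⟩
  have h5 := merge (ω := op G p U) (ω' := op G p (setT F 0 U)) (fun e he => by
      by_cases h : e ∈ F
      · exact ⟨he.1, by rw [setT_mem h]; exact hp⟩
      · exact (op_congr (setT_not h)).2 he) (ball_finite hG o n)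
    (fun e he => by
      by_cases h : e ∈ F
      · exact Or.inr ((hFm e).1 h).2
      · exact Or.inl ((op_congr (setT_not h)).1 he))
    (h3 u hu) (h3 v hv) (fun h => huv (h4 u hu v hv h))
    (cl_trans (cl_symm (hb (le_max_left (G.dist o u) (G.dist o v))))
      (hb (le_max_right (G.dist o u) (G.dist o v))))
  by_cases h6 : setT F 0 U ∈ Ek G p k
  · left
    show ((k + 1 : ℕ) : ℕ∞) ≤ _
    push_cast
    exact (add_le_add_left h6 1).trans h5
  · exact Or.inr (Set.mem_iUnion.2 ⟨n, h6⟩)

/-- **The number of infinite clusters is almost surely `0`, `1` or `∞`.** -/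
theorem trichotomy [Infinite V] (hG : G.Connected) (hqt : IsQuasiTransitive G) (p : I) :
    (∀ᵐ U ∂(unif (Sym2 V)), (infCl (op G p U)).encard = 0) ∨
    (∀ᵐ U ∂(unif (Sym2 V)), (infCl (op G p U)).encard = 1) ∨
    (∀ᵐ U ∂(unif (Sym2 V)), (infCl (op G p U)).encard = ⊤) := by
  have hone : ∀ k, unif (Sym2 V) (Ek G p k) = 1 → ∀ᵐ U ∂(unif (Sym2 V)), U ∈ Ek G p k :=
    fun k h => (prob_compl_eq_zero_iff (meas_Ek p k)).2 h
  rcases Ek_zero_one hG hqt p 1 with h1 | h1
  · left
    filter_upwards [measure_eq_zero_iff_ae_notMem.1 h1] with U hU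
    exact Order.lt_one_iff.1 (not_le.1 hU)
  by_cases h2 : unif (Sym2 V) (Ek G p 2) = 0
  · right; left
    filter_upwards [measure_eq_zero_iff_ae_notMem.1 h2, hone 1 h1] with U hU hU'
    refine le_antisymm (Order.le_of_lt_add_one (not_le.1 fun h => hU ?_)) hU'
    show ((1 + 1 : ℕ) : ℕ∞) ≤ _
    push_cast
    exact h
  · right; right
    have h3 : ∀ k, unif (Sym2 V) (Ek G p (k + 1)) = 1 := by
      intro k
      induction k with
      | zero => exact h1
      | succ k ih => exact Ek_succ hG hqt h2 ih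
    filter_upwards [ae_all_iff.2 fun k => hone _ (h3 k)] with U hU
    refine ENat.eq_top_iff_forall_ge.2 fun k => le_trans ?_ (hU k)
    exact_mod_cast Nat.le_succ k

end Vale.Agent.N151
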